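import Vale.Agent.P249.Scales.Basic

/-!
# P249: the random maximum of nonnegative features

Each feature is kept independently with its rate and scaled up; if every point has few active
features, the maximum reproduces the `q`-th moments of the differences, with no collision noise.
-/

open Finset

namespace Vale.Agent.P249.Scales

variable {ι E : Type*} [Fintype E] [DecidableEq E]

/-- the probability of a pattern of kept features -/
def prob (r : E → ℝ) (ω : E → Bool) : ℝ := ∏ e, if ω e then r e else 1 - r e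

/-- the scaled value of a kept feature -/
noncomputable def scaled (q : ℝ) (r : E → ℝ) (F : ι → E → ℝ) (ω : E → Bool) (x : ι) (e : E) : ℝ :=
  if ω e then F x e / r e ^ q⁻¹ else 0

/-- the maximum of the kept, scaled features -/
noncomputable def rmax (q : ℝ) (r : E → ℝ) (F : ι → E → ℝ) (ω : E → Bool) (x : ι) : ℝ :=
  univ.fold max 0 (scaled q r F ω x)

variable {q : ℝ} {r : E → ℝ} {F : ι → E → ℝ}

omit [DecidableEq E] in
theorem prob_nonneg (hr : ∀ e, 0 ≤ r e) (hr1 : ∀ e, r e ≤ 1) (ω : E → Bool) : 0 ≤ prob r ω :=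
  prod_nonneg fun e _ => by
    split
    · exact hr e
    · linarith [hr1 e]

theorem sum_prob_prod (r : E → ℝ) (h : E → Bool → ℝ) :
    ∑ ω : E → Bool, prob r ω * ∏ e, h e (ω e)
      = ∏ e, (r e * h e true + (1 - r e) * h e false) := by
  simp only [prob, ← prod_mul_distrib]
  rw [← Fintype.prod_sum (fun e b => (if b = true then r e else 1 - r e) * h e b)]
  exact prod_congr rfl fun e _ => by simp

theorem sum_prob (r : E → ℝ) : ∑ ω : E → Bool, prob r ω = 1 := by
  simpa using sum_prob_prod r fun _ _ => 1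

theorem sum_prob_kept (r : E → ℝ) (e : E) :
    ∑ ω : E → Bool, prob r ω * (if ω e then 1 else 0) = r e := by
  have h := sum_prob_prod r fun e' b => if e' = e then (if b then 1 else 0) else 1
  simp only [prod_ite_eq', mem_univ, if_true] at h
  rw [h, prod_eq_single e]
  · simp
  · intro b _ hb; simp [hb]
  · simp

/-- the pattern keeps `e` and no other feature of `A` -/
def Alone (A : Finset E) (e : E) (ω : E → Bool) : Prop :=
  ω e = true ∧ ∀ e' ∈ A, e' ≠ e → ω e' = false

instance (A : Finset E) (e : E) : DecidablePred (Alone A e) := fun _ =>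
  inferInstanceAs (Decidable (_ ∧ _))

theorem le_sum_prob_alone (hr : ∀ e, 0 ≤ r e) (hr1 : ∀ e, r e ≤ 1) (A : Finset E) (e : E) :
    r e * (1 - ∑ e' ∈ A, r e') ≤ ∑ ω : E → Bool, prob r ω * (if Alone A e ω then 1 else 0) := by
  classical
  have h1 : ∀ s : Finset E, 1 - ∑ e' ∈ s, r e' ≤ ∏ e' ∈ s, (1 - r e') := by
    intro s
    induction s using Finset.induction_on with
    | empty => simp
    | insert a s ha ih =>
      rw [sum_insert ha, prod_insert ha]
      have h2 := mul_le_mul_of_nonneg_left ih (sub_nonneg.2 (hr1 a))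
      nlinarith [mul_nonneg (hr a) (sum_nonneg fun e' (_ : e' ∈ s) => hr e')]
  set h : E → Bool → ℝ := fun e' b =>
    if e' = e then (if b then 1 else 0) else if e' ∈ A then (if b then 0 else 1) else 1 with hh
  have hprod : ∀ ω : E → Bool, ∏ e', h e' (ω e') ≤ if Alone A e ω then 1 else 0 := by
    intro ω
    split_ifs with hA
    · refine prod_le_one (fun e' _ => ?_) fun e' _ => ?_ <;>
        simp only [hh] <;> split_ifs <;> norm_num
    · refine le_of_eq ?_
      unfold Alone at hA
      push Not at hA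
      by_cases he : ω e = true
      · obtain ⟨e', he', hne, hω⟩ := hA he
        exact prod_eq_zero (mem_univ e') (by simp [hh, hne, he', hω])
      · exact prod_eq_zero (mem_univ e) (by simp [hh, he])
  refine le_trans ?_ (sum_le_sum fun ω _ => mul_le_mul_of_nonneg_left (hprod ω)
    (prob_nonneg hr hr1 ω))
  rw [sum_prob_prod, ← mul_prod_erase univ _ (mem_univ e)]
  have e1 : r e * h e true + (1 - r e) * h e false = r e := by simp [hh]
  rw [e1]
  refine mul_le_mul_of_nonneg_left ?_ (hr e)
  have e2 : ∏ e' ∈ univ.erase e, (r e' * h e' true + (1 - r e') * h e' false)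
      = ∏ e' ∈ A.erase e, (1 - r e') := by
    rw [← prod_subset (s₁ := A.erase e) (s₂ := univ.erase e)
      (fun x hx => mem_erase.2 ⟨(mem_erase.1 hx).1, mem_univ x⟩)]
    · refine prod_congr rfl fun x hx => ?_
      simp [hh, (mem_erase.1 hx).1, (mem_erase.1 hx).2]
    · intro x hx hxA
      have hne := (mem_erase.1 hx).1
      have : x ∉ A := fun h => hxA (mem_erase.2 ⟨hne, h⟩)
      simp [hh, hne, this]
  rw [e2]
  refine le_trans ?_ (h1 _)
  linarith [sum_le_sum_of_subset_of_nonneg (erase_subset e A) fun x _ _ => hr x]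

omit [DecidableEq E] in
theorem rmax_nonneg (ω : E → Bool) (x : ι) : 0 ≤ rmax q r F ω x := by
  rw [rmax, le_fold_max]; exact Or.inl le_rfl

omit [DecidableEq E] in
theorem scaled_le_rmax (ω : E → Bool) (x : ι) (e : E) : scaled q r F ω x e ≤ rmax q r F ω x := by
  rw [rmax, le_fold_max]; exact Or.inr ⟨e, mem_univ e, le_rfl⟩

omit [DecidableEq E] in
theorem rmax_le {B : ℝ} (hB : 0 ≤ B) {ω : E → Bool} {x : ι}
    (h : ∀ e, scaled q r F ω x e ≤ B) : rmax q r F ω x ≤ B := by
  rw [rmax, fold_max_le]; exact ⟨hB, fun e _ => h e⟩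

theorem rmax_sub_rpow_le (hq : 0 < q) (hr : ∀ e, 0 < r e) (ω : E → Bool) (x y : ι) :
    |rmax q r F ω x - rmax q r F ω y| ^ q
      ≤ ∑ e, (if ω e then 1 else 0) * (|F x e - F y e| ^ q / r e) := by
  have hs : ∀ e, |scaled q r F ω x e - scaled q r F ω y e| ^ q
      = (if ω e then 1 else 0) * (|F x e - F y e| ^ q / r e) := by
    intro e
    simp only [scaled]
    by_cases h : ω e = true
    · rw [if_pos h, if_pos h, if_pos h, one_mul, ← sub_div, abs_div,
        abs_of_pos (Real.rpow_pos_of_pos (hr e) _),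
        Real.div_rpow (abs_nonneg _) (Real.rpow_pos_of_pos (hr e) _).le,
        ← Real.rpow_mul (hr e).le, inv_mul_cancel₀ hq.ne', Real.rpow_one]
    · rw [if_neg h, if_neg h, if_neg h, sub_zero, abs_zero, Real.zero_rpow hq.ne', zero_mul]
  simp only [← hs]
  set S := ∑ e, |scaled q r F ω x e - scaled q r F ω y e| ^ q with hS
  have hS0 : 0 ≤ S := sum_nonneg fun e _ => Real.rpow_nonneg (abs_nonneg _) _
  have h1 : ∀ e, |scaled q r F ω x e - scaled q r F ω y e| ≤ S ^ q⁻¹ := by
    intro e
    have h := single_le_sum (f := fun e => |scaled q r F ω x e - scaled q r F ω y e| ^ q)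
      (fun e _ => Real.rpow_nonneg (abs_nonneg _) _) (mem_univ e)
    have h2 := Real.rpow_le_rpow (by positivity) h (inv_nonneg.2 hq.le)
    rwa [← Real.rpow_mul (abs_nonneg _), mul_inv_cancel₀ hq.ne', Real.rpow_one] at h2
  have h3 : |rmax q r F ω x - rmax q r F ω y| ≤ S ^ q⁻¹ := by
    have hB := Real.rpow_nonneg hS0 q⁻¹
    rw [abs_le]
    constructor
    · have := rmax_le (q := q) (r := r) (F := F) (ω := ω) (x := y)
        (B := rmax q r F ω x + S ^ q⁻¹) (add_nonneg (rmax_nonneg ω x) hB) fun e => by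
          linarith [(abs_le.1 (h1 e)).1, scaled_le_rmax (q := q) (r := r) (F := F) ω x e]
      linarith
    · have := rmax_le (q := q) (r := r) (F := F) (ω := ω) (x := x)
        (B := rmax q r F ω y + S ^ q⁻¹) (add_nonneg (rmax_nonneg ω y) hB) fun e => by
          linarith [(abs_le.1 (h1 e)).2, scaled_le_rmax (q := q) (r := r) (F := F) ω y e]
      linarith
  refine (Real.rpow_le_rpow (abs_nonneg _) h3 hq.le).trans_eq ?_
  rw [← Real.rpow_mul hS0, inv_mul_cancel₀ hq.ne', Real.rpow_one]

theorem rmax_sub_rpow_le_max (hq : 0 < q) (hr : ∀ e, 0 < r e) (hF : ∀ x e, 0 ≤ F x e) {M : ℝ}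
    (hM : 0 ≤ M) (hFM : ∀ x e, F x e ^ q ≤ M * r e) (ω : E → Bool) (x y : ι) :
    |rmax q r F ω x - rmax q r F ω y| ^ q ≤ M := by
  have hb : ∀ z, rmax q r F ω z ≤ M ^ q⁻¹ := by
    intro z
    refine rmax_le (Real.rpow_nonneg hM _) fun e => ?_
    simp only [scaled]
    split
    · rw [div_le_iff₀ (Real.rpow_pos_of_pos (hr e) _), ← Real.mul_rpow hM (hr e).le]
      have h := Real.rpow_le_rpow (Real.rpow_nonneg (hF z e) _) (hFM z e) (inv_nonneg.2 hq.le)
      rwa [← Real.rpow_mul (hF z e), mul_inv_cancel₀ hq.ne', Real.rpow_one] at h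
    · exact Real.rpow_nonneg hM _
  have h : |rmax q r F ω x - rmax q r F ω y| ≤ M ^ q⁻¹ := by
    have := rmax_nonneg (q := q) (r := r) (F := F) ω x
    have := rmax_nonneg (q := q) (r := r) (F := F) ω y
    rw [abs_le]
    constructor <;> linarith [hb x, hb y]
  refine (Real.rpow_le_rpow (abs_nonneg _) h hq.le).trans_eq ?_
  rw [← Real.rpow_mul hM, inv_mul_cancel₀ hq.ne', Real.rpow_one]

theorem sum_prob_rmax_le (hq : 0 < q) (hr : ∀ e, 0 < r e) (hr1 : ∀ e, r e ≤ 1) (x y : ι) :
    ∑ ω, prob r ω * |rmax q r F ω x - rmax q r F ω y| ^ q ≤ ∑ e, |F x e - F y e| ^ q := by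
  refine (sum_le_sum fun ω _ => mul_le_mul_of_nonneg_left (rmax_sub_rpow_le hq hr ω x y)
    (prob_nonneg (fun e => (hr e).le) hr1 ω)).trans_eq ?_
  simp only [mul_sum]
  rw [sum_comm]
  refine sum_congr rfl fun e _ => ?_
  simp only [← mul_assoc, ← sum_mul, sum_prob_kept]
  exact mul_div_cancel₀ _ (hr e).ne'

theorem le_sum_prob_rmax (hq : 0 < q) (hr : ∀ e, 0 < r e) (hr1 : ∀ e, r e ≤ 1)
    (hF : ∀ x e, 0 ≤ F x e) (hact : ∀ x, ∑ e with 0 < F x e, r e ≤ 1 / 8) (x y : ι) :
    3 / 4 * ∑ e, |F x e - F y e| ^ q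
      ≤ ∑ ω, prob r ω * |rmax q r F ω x - rmax q r F ω y| ^ q := by
  classical
  set A : Finset E := univ.filter (fun e => 0 < F x e) ∪ univ.filter (fun e => 0 < F y e) with hA
  have hAsum : ∑ e ∈ A, r e ≤ 1 / 4 := by
    have h := sum_union_inter (s₁ := (univ.filter fun e => 0 < F x e)) (s₂ := univ.filter fun e => 0 < F y e)
      (f := r)
    rw [← hA] at h
    have h2 : 0 ≤ ∑ e ∈ (univ.filter fun e => 0 < F x e) ∩ (univ.filter fun e => 0 < F y e), r e :=
      sum_nonneg fun e _ => (hr e).le
    linarith [hact x, hact y]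
  have houtside : ∀ z, z = x ∨ z = y → ∀ e, e ∉ A → F z e = 0 := by
    intro z hz e he
    refine le_antisymm ?_ (hF z e)
    by_contra h
    push Not at h
    refine he (mem_union.2 ?_)
    rcases hz with rfl | rfl
    · exact Or.inl (mem_filter.2 ⟨mem_univ _, h⟩)
    · exact Or.inr (mem_filter.2 ⟨mem_univ _, h⟩)
  have key : ∀ ω : E → Bool,
      ∑ e, (if Alone A e ω then 1 else 0) * (|F x e - F y e| ^ q / r e)
        ≤ |rmax q r F ω x - rmax q r F ω y| ^ q := by
    intro ω
    by_cases h : ∃ e ∈ A, Alone A e ω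
    · obtain ⟨e, heA, he⟩ := h
      have hval : ∀ z, z = x ∨ z = y → rmax q r F ω z = F z e / r e ^ q⁻¹ := by
        intro z hz
        refine le_antisymm (rmax_le (div_nonneg (hF z e) (Real.rpow_nonneg (hr e).le _))
          fun e' => ?_) ?_
        · simp only [scaled]
          split
          · rename_i hω
            by_cases hee : e' = e
            · rw [hee]
            · by_cases heA' : e' ∈ A
              · exact absurd (he.2 e' heA' hee) (by simp [hω])
              · rw [houtside z hz e' heA', zero_div]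
                exact div_nonneg (hF z e) (Real.rpow_nonneg (hr e).le _)
          · exact div_nonneg (hF z e) (Real.rpow_nonneg (hr e).le _)
        · have := scaled_le_rmax (q := q) (r := r) (F := F) ω z e
          rwa [scaled, if_pos he.1] at this
      rw [hval x (Or.inl rfl), hval y (Or.inr rfl), ← sub_div, abs_div,
        abs_of_pos (Real.rpow_pos_of_pos (hr e) _),
        Real.div_rpow (abs_nonneg _) (Real.rpow_pos_of_pos (hr e) _).le,
        ← Real.rpow_mul (hr e).le, inv_mul_cancel₀ hq.ne', Real.rpow_one]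
      rw [sum_eq_single e]
      · rw [if_pos he, one_mul]
      · intro e' _ hee
        by_cases heA' : e' ∈ A
        · rw [if_neg, zero_mul]
          exact fun h' => by simpa [h'.1] using he.2 e' heA' hee
        · rw [houtside x (Or.inl rfl) e' heA', houtside y (Or.inr rfl) e' heA', sub_zero, abs_zero,
            Real.zero_rpow hq.ne', zero_div, mul_zero]
      · simp
    · push Not at h
      refine le_of_eq_of_le (sum_eq_zero fun e _ => ?_) (Real.rpow_nonneg (abs_nonneg _) _)
      by_cases heA : e ∈ A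
      · rw [if_neg (h e heA), zero_mul]
      · rw [houtside x (Or.inl rfl) e heA, houtside y (Or.inr rfl) e heA, sub_zero, abs_zero,
          Real.zero_rpow hq.ne', zero_div, mul_zero]
  refine le_trans ?_ (sum_le_sum fun ω _ => mul_le_mul_of_nonneg_left (key ω)
    (prob_nonneg (fun e => (hr e).le) hr1 ω))
  simp only [mul_sum]
  rw [sum_comm]
  refine sum_le_sum fun e _ => ?_
  simp only [← mul_assoc, ← sum_mul]
  have h1 := le_sum_prob_alone (fun e => (hr e).le) hr1 A e
  have h0 : 0 ≤ |F x e - F y e| ^ q := Real.rpow_nonneg (abs_nonneg _) _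
  refine le_trans ?_ (mul_le_mul_of_nonneg_right h1 (div_nonneg h0 (hr e).le))
  rw [show r e * (1 - ∑ e' ∈ A, r e') * (|F x e - F y e| ^ q / r e)
    = (1 - ∑ e' ∈ A, r e') * |F x e - F y e| ^ q by field_simp [(hr e).ne']]
  exact mul_le_mul_of_nonneg_right (by linarith) h0

end Vale.Agent.P249.Scales
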