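import Mathlib

/-!
# P249, dimension reduction at large distortion: elementary facts on `ℓ_p`
-/

open Finset

namespace Vale.Agent.P249.Scales

/-- `ℓ_p^m` -/
abbrev Lsp (p : ℝ) (m : ℕ) := PiLp (ENNReal.ofReal p) (fun _ : Fin m => ℝ)

variable {p : ℝ} [Fact (1 ≤ ENNReal.ofReal p)]

theorem one_le_p : 1 ≤ p := by
  have h : (1 : ENNReal) ≤ ENNReal.ofReal p := Fact.out
  simpa using h

theorem norm_rpow {m : ℕ} (z : Lsp p m) : ‖z‖ ^ p = ∑ i, |z i| ^ p := by
  have hp : 0 < p := by linarith [one_le_p (p := p)]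
  have ht : (ENNReal.ofReal p).toReal = p := ENNReal.toReal_ofReal hp.le
  rw [PiLp.norm_eq_sum (by rw [ht]; exact hp), ht, one_div, ← Real.rpow_mul
    (sum_nonneg fun i _ => Real.rpow_nonneg (norm_nonneg _) _), inv_mul_cancel₀ hp.ne', Real.rpow_one]
  simp [Real.norm_eq_abs]

theorem add_rpow_le {a b : ℝ} (ha : 0 ≤ a) (hb : 0 ≤ b) {q : ℝ} (hq : 1 ≤ q) :
    (a + b) ^ q ≤ 2 ^ q * (a ^ q + b ^ q) := by
  have h0 : 0 ≤ q := by linarith
  have h2 : (0 : ℝ) ≤ 2 ^ q := by positivity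
  rcases le_total a b with h | h
  · calc (a + b) ^ q ≤ (2 * b) ^ q := Real.rpow_le_rpow (by linarith) (by linarith) h0
      _ = 2 ^ q * b ^ q := Real.mul_rpow (by norm_num) hb
      _ ≤ _ := by
        have := Real.rpow_nonneg ha q
        nlinarith
  · calc (a + b) ^ q ≤ (2 * a) ^ q := Real.rpow_le_rpow (by linarith) (by linarith) h0
      _ = 2 ^ q * a ^ q := Real.mul_rpow (by norm_num) ha
      _ ≤ _ := by
        have := Real.rpow_nonneg hb q
        nlinarith

theorem sum_rpow_le {β : Type*} (s : Finset β) {f : β → ℝ} (hf : ∀ b ∈ s, 0 ≤ f b) {q : ℝ}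
    (hq : 1 ≤ q) : ∑ b ∈ s, f b ^ q ≤ (∑ b ∈ s, f b) ^ q := by
  classical
  induction s using Finset.induction_on with
  | empty => simp [Real.zero_rpow (by linarith : q ≠ 0)]
  | insert a s ha ih =>
    have hfa : 0 ≤ f a := hf a (mem_insert_self _ _)
    have hfs : ∀ b ∈ s, 0 ≤ f b := fun b hb => hf b (mem_insert_of_mem hb)
    rw [sum_insert ha, sum_insert ha]
    exact (by gcongr; exact ih hfs : f a ^ q + ∑ b ∈ s, f b ^ q ≤ f a ^ q + (∑ b ∈ s, f b) ^ q).trans
      (Real.add_rpow_le_rpow_add hfa (sum_nonneg hfs) hq)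

theorem exp_neg_lip (a b : ℝ) :
    |Real.exp (-a) - Real.exp (-b)| ≤ |a - b| * (Real.exp (-a) + Real.exp (-b)) := by
  wlog h : a ≤ b generalizing a b
  · rw [abs_sub_comm, abs_sub_comm a b, add_comm]
    exact this b a (le_of_lt (not_le.1 h))
  have h1 : Real.exp (-b) ≤ Real.exp (-a) := Real.exp_le_exp.2 (by linarith)
  have h2 := Real.add_one_le_exp (a - b)
  have e : Real.exp (-b) = Real.exp (-a) * Real.exp (a - b) := by rw [← Real.exp_add]; ring_nf
  rw [abs_of_nonneg (by linarith), abs_of_nonpos (by linarith)]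
  nlinarith [Real.exp_pos (-a), Real.exp_pos (-b)]

theorem clip_lip (x y : ℝ) : |max 0 (min 1 x) - max 0 (min 1 y)| ≤ |x - y| := by
  refine (abs_max_sub_max_le_max _ _ _ _).trans (max_le (by simp) ?_)
  refine (abs_min_sub_min_le_max _ _ _ _).trans (max_le (by simp) le_rfl)

end Vale.Agent.P249.Scales
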