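import Mathlib

/-!
P249, scales: collapsing the short pairs coordinatewise. In every coordinate the union of the
intervals spanned by the pairs at distance at most `θ` is deleted.
-/

namespace Vale.Agent.P249.Scales

open MeasureTheory Set Finset

/-- Deleting a set of finite measure from the line. -/
noncomputable def squeeze (U : Set ℝ) (t : ℝ) : ℝ := t - volume.real (U ∩ Iic t)

lemma squeeze_sub {U : Set ℝ} (hUm : MeasurableSet U) (hU : volume U ≠ ⊤) {s t : ℝ} (hst : s ≤ t) :
    squeeze U t - squeeze U s = (t - s) - volume.real (U ∩ Ioc s t) := by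
  have e : U ∩ Iic t = (U ∩ Iic s) ∪ (U ∩ Ioc s t) := by
    rw [← inter_union_distrib_left, Iic_union_Ioc_eq_Iic hst]
  have hd : Disjoint (U ∩ Iic s) (U ∩ Ioc s t) :=
    (Set.Iic_disjoint_Ioc le_rfl).mono Set.inter_subset_right Set.inter_subset_right
  rw [squeeze, squeeze, e, measureReal_union hd (hUm.inter measurableSet_Ioc)
    (measure_ne_top_of_subset Set.inter_subset_left hU) (measure_ne_top_of_subset Set.inter_subset_left hU)]
  ring

/-- One coordinate: distances shrink by at most the deleted length, and the spans vanish. -/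
theorem exists_squeeze {σ : Type*} (S : Finset σ) (u v : σ → ℝ) :
    ∃ φ : ℝ → ℝ, (∀ s t, |φ s - φ t| ≤ |s - t|) ∧
      (∀ s t, |s - t| ≤ |φ s - φ t| + ∑ e ∈ S, |u e - v e|) ∧
      ∀ e ∈ S, φ (u e) = φ (v e) := by
  classical
  set U : Set ℝ := ⋃ e ∈ S, uIcc (u e) (v e) with hUdef
  have hUm : MeasurableSet U := MeasurableSet.biUnion S.countable_toSet fun e _ => measurableSet_uIcc
  have hUle : volume U ≤ ∑ e ∈ S, ENNReal.ofReal |u e - v e| := by
    refine (measure_biUnion_finset_le S _).trans (le_of_eq (Finset.sum_congr rfl fun e _ => ?_))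
    rw [Real.volume_interval, abs_sub_comm]
  have hU : volume U ≠ ⊤ := by
    refine ne_top_of_le_ne_top ?_ hUle
    exact ENNReal.sum_ne_top.2 fun e _ => ENNReal.ofReal_ne_top
  have hUr : volume.real U ≤ ∑ e ∈ S, |u e - v e| := by
    refine ENNReal.toReal_le_of_le_ofReal (Finset.sum_nonneg fun e _ => abs_nonneg _) ?_
    rw [ENNReal.ofReal_sum_of_nonneg fun e _ => abs_nonneg _]
    exact hUle
  have key : ∀ s t : ℝ, s ≤ t → 0 ≤ squeeze U t - squeeze U s ∧
      squeeze U t - squeeze U s ≤ t - s ∧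
      t - s ≤ squeeze U t - squeeze U s + ∑ e ∈ S, |u e - v e| := by
    intro s t hst
    rw [squeeze_sub hUm hU hst]
    have h0 : 0 ≤ volume.real (U ∩ Ioc s t) := measureReal_nonneg
    have h1 : volume.real (U ∩ Ioc s t) ≤ t - s :=
      (measureReal_mono Set.inter_subset_right measure_Ioc_lt_top.ne).trans_eq
        (Real.volume_real_Ioc_of_le hst)
    have h2 : volume.real (U ∩ Ioc s t) ≤ ∑ e ∈ S, |u e - v e| :=
      (measureReal_mono Set.inter_subset_left hU).trans hUr
    exact ⟨by linarith, by linarith, by linarith⟩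
  refine ⟨squeeze U, fun s t => ?_, fun s t => ?_, fun e he => ?_⟩
  · rcases le_total s t with h | h <;> obtain ⟨h0, h1, -⟩ := key _ _ h
    · rw [abs_sub_comm, abs_of_nonneg h0, abs_sub_comm, abs_of_nonneg (by linarith)]; exact h1
    · rw [abs_of_nonneg h0, abs_of_nonneg (by linarith)]; exact h1
  · rcases le_total s t with h | h <;> obtain ⟨h0, -, h2⟩ := key _ _ h
    · rw [abs_sub_comm, abs_of_nonneg (by linarith), abs_sub_comm, abs_of_nonneg h0]; exact h2
    · rw [abs_of_nonneg (by linarith), abs_of_nonneg h0]; exact h2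
  · have hsub : ∀ s t : ℝ, s ≤ t → Ioc s t ⊆ U → squeeze U s = squeeze U t := fun s t hst hI => by
      have h := squeeze_sub hUm hU hst
      rw [inter_eq_self_of_subset_right hI, Real.volume_real_Ioc_of_le hst] at h
      linarith
    have hmem : uIcc (u e) (v e) ⊆ U := subset_biUnion_of_mem (u := fun e => uIcc (u e) (v e)) he
    rcases le_total (u e) (v e) with h | h
    · exact hsub _ _ h (Ioc_subset_Icc_self.trans (by rw [← uIcc_of_le h]; exact hmem))
    · exact (hsub _ _ h (Ioc_subset_Icc_self.trans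
        (by rw [← uIcc_of_ge h]; exact hmem))).symm

/-- The `p`-sum of a family of reals to the power `1/p`. -/
theorem lp_sum_le {κ σ : Type*} [Fintype κ] {p : ℝ} (hp : 1 ≤ p) (S : Finset σ) (g : σ → κ → ℝ) :
    (∑ i, |∑ e ∈ S, g e i| ^ p) ^ (1 / p) ≤ ∑ e ∈ S, (∑ i, |g e i| ^ p) ^ (1 / p) := by
  classical
  induction S using Finset.induction_on with
  | empty =>
    have h1 : p ≠ 0 := by linarith
    have h2 : p⁻¹ ≠ 0 := inv_ne_zero h1
    simp [Real.zero_rpow h1, Real.zero_rpow h2]
  | insert a s ha ih =>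
    simp only [Finset.sum_insert ha]
    exact (Real.Lp_add_le Finset.univ (g a) (fun i => ∑ e ∈ s, g e i) hp).trans
      (add_le_add le_rfl ih)

/-- Collapse of the pairs at distance at most `θ`. -/
theorem exists_collapse {ι κ : Type*} [Fintype ι] [Fintype κ] (x : ι → κ → ℝ) {p : ℝ} (hp : 1 ≤ p)
    {θ : ℝ} (hθ : 0 ≤ θ) :
    ∃ x' : ι → κ → ℝ, (∀ a b i, |x' a i - x' b i| ≤ |x a i - x b i|) ∧
      (∀ a b, (∑ i, |x a i - x b i| ^ p) ^ (1 / p) ≤
        (∑ i, |x' a i - x' b i| ^ p) ^ (1 / p) + (Fintype.card ι : ℝ) ^ 2 * θ) ∧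
      ∀ a b, (∑ i, |x a i - x b i| ^ p) ^ (1 / p) ≤ θ → x' a = x' b := by
  classical
  set S : Finset (ι × ι) :=
    Finset.univ.filter fun e => (∑ i, |x e.1 i - x e.2 i| ^ p) ^ (1 / p) ≤ θ with hS
  choose φ h1 h2 h3 using fun i => exists_squeeze S (fun e => x e.1 i) (fun e => x e.2 i)
  refine ⟨fun a i => φ i (x a i), fun a b i => h1 i _ _, fun a b => ?_, fun a b hab => ?_⟩
  · set w : κ → ℝ := fun i => ∑ e ∈ S, |x e.1 i - x e.2 i| with hw
    have hw0 : ∀ i, 0 ≤ w i := fun i => Finset.sum_nonneg fun e _ => abs_nonneg _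
    calc (∑ i, |x a i - x b i| ^ p) ^ (1 / p)
        ≤ (∑ i, |(|φ i (x a i) - φ i (x b i)|) + w i| ^ p) ^ (1 / p) := by
          refine Real.rpow_le_rpow (Finset.sum_nonneg fun i _ => Real.rpow_nonneg (abs_nonneg _) _)
            (Finset.sum_le_sum fun i _ => ?_) (by positivity)
          refine Real.rpow_le_rpow (abs_nonneg _) ?_ (by linarith)
          rw [abs_of_nonneg (add_nonneg (abs_nonneg _) (hw0 i))]
          exact h2 i _ _
      _ ≤ (∑ i, |(|φ i (x a i) - φ i (x b i)|)| ^ p) ^ (1 / p) + (∑ i, |w i| ^ p) ^ (1 / p) :=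
          Real.Lp_add_le _ _ _ hp
      _ ≤ _ := by
          simp only [abs_abs]
          refine add_le_add le_rfl ((lp_sum_le hp S fun e i => |x e.1 i - x e.2 i|).trans ?_)
          simp only [abs_abs]
          calc ∑ e ∈ S, (∑ i, |x e.1 i - x e.2 i| ^ p) ^ (1 / p) ≤ ∑ _e ∈ S, θ :=
                Finset.sum_le_sum fun e he => (Finset.mem_filter.1 he).2
            _ ≤ (Fintype.card ι : ℝ) ^ 2 * θ := by
                rw [Finset.sum_const, nsmul_eq_mul]
                gcongr
                have := S.card_le_univ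
                rw [Fintype.card_prod] at this
                calc (S.card : ℝ) ≤ ((Fintype.card ι * Fintype.card ι : ℕ) : ℝ) := by
                      exact_mod_cast this
                  _ = _ := by push_cast; ring
  · funext i
    exact h3 i (a, b) (Finset.mem_filter.2 ⟨Finset.mem_univ _, hab⟩)

end Vale.Agent.P249.Scales
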