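import Vale.Agent.P249.Scales.Basic

/-!
# P249: the dyadic levels of a real number

`piece τ` carries the part of a number in `[τ, 2τ]`; the levels below a top cost nothing in `ℓ_p`.
-/

open Finset

namespace Vale.Agent.P249.Scales

/-- the part of `a` between `τ` and `2 τ` -/
def piece (τ a : ℝ) : ℝ := max 0 (min (a - τ) τ)

/-- `k` levels, the highest being `τ` -/
noncomputable def lvl (τ : ℝ) (l : ℕ) : ℝ := τ / 2 ^ l

/-- the sum of `k` consecutive pieces below `2 τ` -/
noncomputable def stack (τ : ℝ) (k : ℕ) (a : ℝ) : ℝ := ∑ l ∈ range k, piece (lvl τ l) a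

theorem piece_nonneg (τ a : ℝ) : 0 ≤ piece τ a := le_max_left _ _

theorem piece_le {τ : ℝ} (hτ : 0 ≤ τ) (a : ℝ) : piece τ a ≤ τ := max_le hτ (min_le_right _ _)

theorem piece_mono (τ : ℝ) : Monotone (piece τ) := fun a b h =>
  max_le_max le_rfl (min_le_min (by linarith) le_rfl)

theorem lvl_pos {τ : ℝ} (hτ : 0 < τ) (l : ℕ) : 0 < lvl τ l := div_pos hτ (by positivity)

theorem lvl_succ (τ : ℝ) (l : ℕ) : lvl τ (l + 1) = lvl (τ / 2) l := by
  simp only [lvl, pow_succ]; ring

theorem lvl_le {τ : ℝ} (hτ : 0 ≤ τ) (l : ℕ) : lvl τ l ≤ τ :=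
  div_le_self hτ (one_le_pow₀ (by norm_num))

theorem lt_of_piece_pos {τ a : ℝ} (h : 0 < piece τ a) : τ < a := by
  by_contra h'
  push Not at h'
  have : min (a - τ) τ ≤ 0 := (min_le_left _ _).trans (by linarith)
  rw [piece, max_eq_left this] at h
  exact lt_irrefl _ h

theorem stack_succ (τ : ℝ) (k : ℕ) (a : ℝ) :
    stack τ (k + 1) a = piece τ a + stack (τ / 2) k a := by
  rw [stack, sum_range_succ', add_comm]
  congr 1
  · simp [lvl]
  · exact sum_congr rfl fun l _ => by rw [lvl_succ]

theorem stack_nonneg (τ : ℝ) (k : ℕ) (a : ℝ) : 0 ≤ stack τ k a :=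
  sum_nonneg fun _ _ => piece_nonneg _ _

theorem stack_mono (τ : ℝ) (k : ℕ) : Monotone (stack τ k) := fun _ _ h =>
  sum_le_sum fun _ _ => piece_mono _ h

/-- the stack is the part between the lowest level and the top -/
theorem stack_eq {τ : ℝ} (hτ : 0 < τ) (k : ℕ) (a : ℝ) :
    stack τ k a = max 0 (min a (2 * τ) - lvl τ k * 2) := by
  induction k generalizing τ with
  | zero =>
    rw [max_eq_left]
    · simp [stack]
    · simp only [lvl, pow_zero, div_one]
      linarith [min_le_right a (2 * τ)]
  | succ k ih =>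
    rw [stack_succ, ih (by positivity), lvl_succ]
    have h1 := lvl_le (τ := τ / 2) (by positivity) k
    have h2 := lvl_pos (τ := τ / 2) (by positivity) k
    simp only [piece]
    rcases le_total a τ with h | h
    · rw [min_eq_left (show a ≤ 2 * τ by linarith), min_eq_left (show a - τ ≤ τ by linarith),
        max_eq_left (show a - τ ≤ 0 by linarith), show min a (2 * (τ / 2)) = a from
          min_eq_left (by linarith)]
      ring
    · rw [show min a (2 * (τ / 2)) = τ from (min_eq_right (by linarith)).trans (by ring)]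
      rcases le_total a (2 * τ) with h' | h'
      · rw [min_eq_left h', min_eq_left (show a - τ ≤ τ by linarith),
          max_eq_right (show 0 ≤ a - τ by linarith), max_eq_right (by linarith),
          max_eq_right (by linarith)]
        ring
      · rw [min_eq_right h', min_eq_right (show τ ≤ a - τ by linarith), max_eq_right hτ.le,
          max_eq_right (by linarith), max_eq_right (by linarith)]
        ring

theorem stack_le {τ : ℝ} (hτ : 0 < τ) (k : ℕ) {a : ℝ} (ha : 0 ≤ a) : stack τ k a ≤ a := by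
  rw [stack_eq hτ]
  exact max_le ha (by linarith [min_le_left a (2 * τ), lvl_pos hτ k])

theorem abs_stack_sub_le {τ : ℝ} (hτ : 0 < τ) (k : ℕ) (s t : ℝ) :
    |stack τ k t - stack τ k s| ≤ |t - s| := by
  rw [stack_eq hτ, stack_eq hτ]
  refine (abs_max_sub_max_le_max _ _ _ _).trans (max_le (by simp) ?_)
  rw [sub_sub_sub_cancel_right]
  exact (abs_min_sub_min_le_max _ _ _ _).trans (max_le le_rfl (by simp))

theorem abs_sub_le_stack {τ : ℝ} (hτ : 0 < τ) (k : ℕ) {s t : ℝ} (hs : 0 ≤ s) (hs' : s ≤ 2 * τ)
    (ht : 0 ≤ t) (ht' : t ≤ 2 * τ) :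
    |t - s| ≤ |stack τ k t - stack τ k s| + 2 * lvl τ k := by
  wlog h : s ≤ t generalizing s t
  · rw [abs_sub_comm, abs_sub_comm (stack τ k t)]
    exact this ht ht' hs hs' (le_of_lt (not_le.1 h))
  rw [abs_of_nonneg (sub_nonneg.2 h), abs_of_nonneg (sub_nonneg.2 (stack_mono τ k h)),
    stack_eq hτ, stack_eq hτ, min_eq_left hs', min_eq_left ht']
  have := lvl_pos hτ k
  rcases le_total s (lvl τ k * 2) with h1 | h1
  · rw [max_eq_left (by linarith : s - lvl τ k * 2 ≤ 0)]
    linarith [le_max_right 0 (t - lvl τ k * 2)]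
  · rw [max_eq_right (by linarith : 0 ≤ s - lvl τ k * 2)]
    linarith [le_max_right 0 (t - lvl τ k * 2)]

theorem sum_piece_rpow_le {τ q : ℝ} (hτ : 0 < τ) (hq : 1 ≤ q) (k : ℕ) (s t : ℝ) :
    ∑ l ∈ range k, |piece (lvl τ l) t - piece (lvl τ l) s| ^ q ≤ |t - s| ^ q := by
  refine (sum_rpow_le _ (fun l _ => abs_nonneg _) hq).trans
    (Real.rpow_le_rpow (sum_nonneg fun l _ => abs_nonneg _) ?_ (by linarith))
  refine le_of_eq_of_le ?_ (abs_stack_sub_le hτ k s t)
  rcases le_total s t with h | h
  · rw [abs_of_nonneg (sub_nonneg.2 (stack_mono τ k h)), stack, stack, ← sum_sub_distrib]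
    exact sum_congr rfl fun l _ => abs_of_nonneg (sub_nonneg.2 (piece_mono _ h))
  · rw [abs_of_nonpos (sub_nonpos.2 (stack_mono τ k h)), stack, stack, ← sum_sub_distrib,
      ← sum_neg_distrib]
    exact sum_congr rfl fun l _ => abs_of_nonpos (sub_nonpos.2 (piece_mono _ h))

theorem stack_step_le {τ M : ℝ} (hτ : 0 < τ) (k : ℕ) {s t : ℝ} (hst : s ≤ t) (hM : 0 ≤ M)
    (h : ∀ l < k, piece (lvl τ l) t - piece (lvl τ l) s ≤ M) :
    stack τ k t - stack τ k s ≤ 3 * M ∧ (2 * τ ≤ t → stack τ k t - stack τ k s ≤ 2 * M) := by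
  induction k generalizing τ with
  | zero =>
    simp only [stack, range_zero, sum_empty, sub_zero]
    exact ⟨by linarith, fun _ => by linarith⟩
  | succ k ih =>
    obtain ⟨ih1, ih2⟩ := ih (τ := τ / 2) (by positivity) fun l hl => by
      simpa [lvl_succ] using h (l + 1) (by omega)
    have h0 : piece τ t - piece τ s ≤ M := by simpa [lvl] using h 0 (by omega)
    rw [stack_succ, stack_succ]
    have hR := stack_eq (show 0 < τ / 2 by positivity) k
    by_cases hsτ : τ ≤ s
    · -- both arguments are above the lower levels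
      have e : stack (τ / 2) k t = stack (τ / 2) k s := by
        rw [hR, hR, min_eq_right (by linarith), min_eq_right (by linarith)]
      exact ⟨by linarith, fun _ => by linarith⟩
    push Not at hsτ
    have hs0 : piece τ s = 0 := by
      rw [piece, max_eq_left]
      exact (min_le_left _ _).trans (by linarith)
    constructor
    · by_cases htτ : τ ≤ t
      · linarith [ih2 (by linarith)]
      · have ht0 : piece τ t = 0 := by
          rw [piece, max_eq_left]
          exact (min_le_left _ _).trans (by linarith [not_le.1 htτ])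
        linarith
    · intro ht
      have htop : piece τ t = τ := by
        rw [piece, min_eq_right (by linarith), max_eq_right hτ.le]
      have hlow : stack (τ / 2) k t - stack (τ / 2) k s ≤ τ := by
        have h1 := lvl_pos (τ := τ / 2) (by positivity) k
        have h2 := stack_nonneg (τ / 2) k s
        have h3 : stack (τ / 2) k t ≤ τ := by
          rw [hR]
          exact max_le hτ.le (by linarith [min_le_right t (2 * (τ / 2))])
        linarith
      linarith

theorem abs_stack_rpow_le {τ q : ℝ} (hτ : 0 < τ) (hq : 1 ≤ q) (k : ℕ) (s t : ℝ) :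
    |stack τ k t - stack τ k s| ^ q
      ≤ 3 ^ q * ∑ l ∈ range k, |piece (lvl τ l) t - piece (lvl τ l) s| ^ q := by
  wlog h : s ≤ t generalizing s t
  · simp only [abs_sub_comm (stack τ k t), abs_sub_comm (piece _ t)]
    exact this t s (le_of_lt (not_le.1 h))
  set S := ∑ l ∈ range k, |piece (lvl τ l) t - piece (lvl τ l) s| ^ q with hS
  have hS0 : 0 ≤ S := sum_nonneg fun l _ => Real.rpow_nonneg (abs_nonneg _) _
  have hstep := (stack_step_le hτ k h (Real.rpow_nonneg hS0 q⁻¹) fun l hl => by
    refine (le_abs_self _).trans ?_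
    have := single_le_sum (f := fun l => |piece (lvl τ l) t - piece (lvl τ l) s| ^ q)
      (fun l _ => Real.rpow_nonneg (abs_nonneg _) _) (mem_range.2 hl)
    have h2 := Real.rpow_le_rpow (by positivity) this (inv_nonneg.2 (by linarith : 0 ≤ q))
    rwa [← Real.rpow_mul (abs_nonneg _), mul_inv_cancel₀ (by linarith), Real.rpow_one] at h2).1
  rw [abs_of_nonneg (sub_nonneg.2 (stack_mono τ k h))]
  refine (Real.rpow_le_rpow (sub_nonneg.2 (stack_mono τ k h)) hstep (by linarith)).trans_eq ?_
  rw [Real.mul_rpow (by norm_num) (Real.rpow_nonneg hS0 _), ← Real.rpow_mul hS0,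
    inv_mul_cancel₀ (by linarith), Real.rpow_one]

end Vale.Agent.P249.Scales
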