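import Vale.Agent.P249.Scales.Kernel
import Vale.Agent.P249.Scales.Levels

/-!
# P249: the features at one scale

For each centre, coordinate, level and sign one nonnegative feature, and one per centre. Their
`p`-th moments reproduce the distance, their heights are controlled by their rates, and each point
activates only a small total rate.
-/

open Finset

namespace Vale.Agent.P249.Scales

variable {p : ℝ} {m : ℕ} {ι : Type*} [Fintype ι]

/-- the top level at radius `R` -/
noncomputable def top (B R : ℝ) : ℝ := (rad B + 2) * R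

/-- the feature index -/
abbrev Ft (ι : Type*) (m k : ℕ) := (ι × Fin m × Fin k × Bool) ⊕ ι

/-- positive or negative part -/
def part (b : Bool) (z : ℝ) : ℝ := max 0 (if b then z else -z)

variable [Fact (1 ≤ ENNReal.ofReal p)] (u : ι → Lsp p m)

/-- the scaled kernel -/
noncomputable def nu (B R : ℝ) (a c : ι) : ℝ := beta u B R a * kap u B p R a c

/-- the value of a feature -/
noncomputable def feat (B R : ℝ) (k : ℕ) (a : ι) : Ft ι m k → ℝ
  | .inl (c, i, l, b) => nu u B R a c * piece (lvl (top B R) l) (part b (u a i - u c i))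
  | .inr c => nu u B R a c * top B R

/-- the base rate -/
noncomputable def base (B : ℝ) (k : ℕ) : ℝ :=
  1 / (16 * Real.exp (2 * (rad B + 1)) * ((k : ℝ) + 1))

/-- the rate of a feature -/
noncomputable def rate (B R : ℝ) (k : ℕ) : Ft ι m k → ℝ
  | .inl (c, _, l, _) => base B k * (lvl (top B R) l / top B R) ^ p / Z u R c
  | .inr c => base B k / Z u R c

/-- the moment constant -/
noncomputable def upC (p B : ℝ) : ℝ := 2 ^ p * (8 * (10 * (rad B + 2)) ^ p)

/-- the lower moment constant -/
noncomputable def lowC (p : ℝ) : ℝ := 4 * 4 ^ p * 3 ^ p * 2 ^ (p + 1)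

variable {u} {B R : ℝ} {k : ℕ}

theorem part_nonneg (b : Bool) (z : ℝ) : 0 ≤ part b z := le_max_left _ _

theorem part_le_abs (b : Bool) (z : ℝ) : part b z ≤ |z| :=
  max_le (abs_nonneg _) (by cases b <;> simp [le_abs_self, neg_le_abs])

theorem abs_part_sub (b : Bool) (z z' : ℝ) : |part b z - part b z'| ≤ |z - z'| := by
  refine (abs_max_sub_max_le_max _ _ _ _).trans (max_le (by simp) ?_)
  cases b <;> simp [abs_sub_comm, neg_add_eq_sub]

theorem abs_sub_le_parts (z z' : ℝ) :
    |z - z'| ≤ |part true z - part true z'| + |part false z - part false z'| := by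
  have e : ∀ z, z = part true z - part false z := fun z => by
    simp only [part, if_true, Bool.false_eq_true, if_false]
    rcases le_total 0 z with h | h
    · rw [max_eq_right h, max_eq_left (by linarith : -z ≤ 0)]; ring
    · rw [max_eq_left h, max_eq_right (by linarith : 0 ≤ -z)]; ring
  conv_lhs => rw [e z, e z', sub_sub_sub_comm]
  exact abs_sub _ _

theorem top_pos (hB : 0 ≤ B) (hR : 0 < R) : 0 < top B R := by
  rw [top, rad]; positivity

theorem nu_nonneg (a c : ι) : 0 ≤ nu u B R a c := mul_nonneg (beta_nonneg a) (kap_nonneg a c)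

theorem nu_rpow_le_ew (a c : ι) : nu u B R a c ^ p ≤ ew u p R a c ^ p :=
  Real.rpow_le_rpow (nu_nonneg a c)
    ((mul_le_of_le_one_left (kap_nonneg a c) (beta_le_one a)).trans (kap_le a c))
    (zero_le_one.trans one_le_p)

theorem dst_le_of_nu (hR : 0 < R) {a c : ι} (h : nu u B R a c ≠ 0) :
    dst u a c ≤ (rad B + 1) * R :=
  dst_le_of_kap (q := p) hR fun h' => h (by rw [nu, h', mul_zero])

theorem sum_nu_rpow_le (a : ι) : ∑ c, nu u B R a c ^ p ≤ 1 :=
  (sum_le_sum fun c _ => nu_rpow_le_ew a c).trans_eq
    (sum_ew_rpow (by linarith [one_le_p (p := p)]) a)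

theorem abs_nu_sub (hR : 0 < R) (a b c : ι) :
    |nu u B R a c - nu u B R b c| ≤ 5 * dst u a b / R * (ew u p R a c + ew u p R b c) := by
  have e : nu u B R a c - nu u B R b c = (beta u B R a - beta u B R b) * kap u B p R a c
      + beta u B R b * (kap u B p R a c - kap u B p R b c) := by simp only [nu]; ring
  have h0 : 0 ≤ dst u a b / R := div_nonneg (dst_nonneg u a b) hR.le
  have h2 := abs_kap_sub (u := u) (B := B) hR (one_le_p (p := p)) a b c
  have h1 : |beta u B R a - beta u B R b| * kap u B p R a c
      ≤ 2 * dst u a b / R * (ew u p R a c + ew u p R b c) :=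
    mul_le_mul (abs_beta_sub hR a b)
      ((kap_le a c).trans (le_add_of_nonneg_right (ew_pos b c).le)) (kap_nonneg a c)
      (by have := dst_nonneg u a b; positivity)
  rw [e]
  refine (abs_add_le _ _).trans ?_
  rw [abs_mul, abs_mul, abs_of_nonneg (kap_nonneg a c), abs_of_nonneg (beta_nonneg b)]
  have h3 := mul_le_of_le_one_left (abs_nonneg (kap u B p R a c - kap u B p R b c))
    (beta_le_one (u := u) (B := B) (R := R) b)
  rw [show 5 * dst u a b / R = 2 * dst u a b / R + 3 * dst u a b / R by ring, add_mul]
  linarith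

theorem sum_abs_nu_sub_rpow (hR : 0 < R) (a b : ι) :
    ∑ c, |nu u B R a c - nu u B R b c| ^ p ≤ 2 * (10 * dst u a b / R) ^ p := by
  have hp := one_le_p (p := p)
  have hd := dst_nonneg u a b
  calc ∑ c, |nu u B R a c - nu u B R b c| ^ p
      ≤ ∑ c, (5 * dst u a b / R) ^ p * (2 ^ p * (ew u p R a c ^ p + ew u p R b c ^ p)) := by
        refine sum_le_sum fun c _ => (Real.rpow_le_rpow (abs_nonneg _) (abs_nu_sub hR a b c)
          (by linarith)).trans ?_
        rw [Real.mul_rpow (by positivity) (add_nonneg (ew_pos a c).le (ew_pos b c).le)]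
        exact mul_le_mul_of_nonneg_left
          (add_rpow_le (ew_pos a c).le (ew_pos b c).le hp) (by positivity)
    _ = _ := by
        rw [← mul_sum, ← mul_sum, sum_add_distrib, sum_ew_rpow (by linarith) a,
          sum_ew_rpow (by linarith) b, ← mul_assoc, ← Real.mul_rpow (by positivity) (by norm_num)]
        ring_nf

theorem feat_nonneg (hB : 0 ≤ B) (hR : 0 < R) (a : ι) (e : Ft ι m k) : 0 ≤ feat u B R k a e := by
  match e with
  | .inl (c, i, l, b) => exact mul_nonneg (nu_nonneg a c) (piece_nonneg _ _)
  | .inr c => exact mul_nonneg (nu_nonneg a c) (top_pos hB hR).le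

theorem base_pos (B : ℝ) (k : ℕ) : 0 < base B k := by rw [base]; positivity

theorem base_le_one (hB : 0 ≤ B) (k : ℕ) : base B k ≤ 1 := by
  rw [base, div_le_one (by positivity)]
  have h1 : 1 ≤ Real.exp (2 * (rad B + 1)) := Real.one_le_exp (by rw [rad]; linarith)
  have h2 : (1 : ℝ) ≤ (k : ℝ) + 1 := by linarith [(Nat.cast_nonneg k : (0 : ℝ) ≤ k)]
  nlinarith

theorem rate_pos (hB : 0 ≤ B) (hR : 0 < R) (e : Ft ι m k) : 0 < rate u B R k e := by
  match e with
  | .inl (c, i, l, b) =>
    exact div_pos (mul_pos (base_pos B k) (Real.rpow_pos_of_pos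
      (div_pos (lvl_pos (top_pos hB hR) l) (top_pos hB hR)) _)) (Z_pos c)
  | .inr c => exact div_pos (base_pos B k) (Z_pos c)

theorem rate_le_one (hB : 0 ≤ B) (hR : 0 < R) (e : Ft ι m k) : rate u B R k e ≤ 1 := by
  match e with
  | .inl (c, i, l, b) =>
    refine (div_le_one (Z_pos c)).2 (le_trans ?_ (one_le_Z c))
    refine mul_le_one₀ (base_le_one hB k) (Real.rpow_nonneg (div_nonneg
      (lvl_pos (top_pos hB hR) l).le (top_pos hB hR).le) _) ?_
    exact Real.rpow_le_one (div_nonneg (lvl_pos (top_pos hB hR) l).le (top_pos hB hR).le)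
      ((div_le_one (top_pos hB hR)).2 (lvl_le (top_pos hB hR).le l))
      (zero_le_one.trans one_le_p)
  | .inr c => exact (div_le_one (Z_pos c)).2 ((base_le_one hB k).trans (one_le_Z c))

theorem feat_rpow_le_rate (hB : 0 ≤ B) (hR : 0 < R) (a : ι) (e : Ft ι m k) :
    feat u B R k a e ^ p ≤ top B R ^ p * Real.exp (rad B + 1) / base B k * rate u B R k e := by
  have hp0 : 0 < p := by linarith [one_le_p (p := p)]
  have hT := top_pos hB hR
  have key : ∀ c t, 0 ≤ t → (nu u B R a c * t) ^ p
      ≤ Real.exp (rad B + 1) / Z u R c * t ^ p := by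
    intro c t ht
    rw [Real.mul_rpow (nu_nonneg a c) ht]
    refine mul_le_mul_of_nonneg_right ?_ (Real.rpow_nonneg ht _)
    by_cases h : nu u B R a c = 0
    · rw [h, Real.zero_rpow hp0.ne']
      exact div_nonneg (Real.exp_pos _).le (Z_pos c).le
    refine (nu_rpow_le_ew a c).trans ((ew_rpow_le hp0.ne' hR a c).trans ?_)
    rw [div_le_div_iff₀ (Z_pos a) (Z_pos c), one_mul]
    refine (Z_le_exp_mul hR c a).trans (mul_le_mul_of_nonneg_right (Real.exp_le_exp.2 ?_)
      (Z_pos a).le)
    rw [dst_comm u c a, div_le_iff₀ hR]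
    exact dst_le_of_nu hR h
  have hb := base_pos B k
  match e with
  | .inl (c, i, l, b) =>
    refine (key c _ (piece_nonneg _ _)).trans ((mul_le_mul_of_nonneg_left (Real.rpow_le_rpow
      (piece_nonneg _ _) (piece_le (lvl_pos hT l).le _) hp0.le)
      (div_nonneg (Real.exp_pos _).le (Z_pos c).le)).trans_eq ?_)
    simp only [rate]
    rw [Real.div_rpow (lvl_pos hT l).le hT.le]
    have := (Real.rpow_pos_of_pos hT p).ne'
    have := (Z_pos (u := u) (R := R) c).ne'
    field_simp
  | .inr c =>
    refine (key c _ hT.le).trans_eq ?_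
    simp only [rate]
    have := (Z_pos (u := u) (R := R) c).ne'
    field_simp

theorem sum_split (G : Ft ι m k → ℝ) :
    ∑ e, G e = ∑ c, ((∑ i, ∑ b, ∑ l : Fin k, G (.inl (c, i, l, b))) + G (.inr c)) := by
  rw [Fintype.sum_sum_type, sum_add_distrib, Fintype.sum_prod_type]
  congr 1
  refine sum_congr rfl fun c _ => ?_
  rw [Fintype.sum_prod_type]
  refine sum_congr rfl fun i _ => ?_
  rw [Fintype.sum_prod_type, sum_comm]

theorem sum_parts_rpow_le (z z' : Lsp p m) :
    ∑ i, ∑ b, |part b (z i) - part b (z' i)| ^ p ≤ 2 * ‖z - z'‖ ^ p := by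
  rw [norm_rpow, mul_sum]
  refine sum_le_sum fun i _ => (sum_le_card_nsmul _ _ _ fun b _ => Real.rpow_le_rpow (abs_nonneg _)
    (abs_part_sub b (z i) (z' i)) (zero_le_one.trans one_le_p)).trans_eq ?_
  simp

theorem rate_active_le (hB : 0 ≤ B) (hR : 0 < R) (a : ι) :
    ∑ e with 0 < feat u B R k a e, rate u B R k e ≤ 1 / 8 := by
  classical
  have hp1 := one_le_p (p := p)
  have hp0 : 0 < p := by linarith
  have hT := top_pos hB hR
  rw [sum_filter, sum_split]
  have hc : ∀ c, ((∑ i, ∑ b, ∑ l : Fin k, if 0 < feat u B R k a (.inl (c, i, l, b)) then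
        rate u B R k (.inl (c, i, l, b)) else 0)
      + if 0 < feat u B R k a (.inr c) then rate u B R k (.inr c) else 0)
      ≤ if dst u a c ≤ (rad B + 1) * R then 2 * ((k : ℝ) + 1) * base B k / Z u R c else 0 := by
    intro c
    by_cases hd : dst u a c ≤ (rad B + 1) * R
    · rw [if_pos hd]
      have hbz : 0 ≤ base B k / Z u R c := div_nonneg (base_pos B k).le (Z_pos c).le
      have h1 : (∑ i, ∑ b, ∑ l : Fin k, if 0 < feat u B R k a (.inl (c, i, l, b)) then
          rate u B R k (.inl (c, i, l, b)) else 0)
          ≤ base B k / Z u R c * (2 * (k : ℝ) * (((rad B + 1) * R) / top B R) ^ p) := by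
        calc _ ≤ ∑ i, ∑ b, ∑ _l : Fin k,
              base B k / Z u R c * (part b (u a i - u c i) / top B R) ^ p := by
              refine sum_le_sum fun i _ => sum_le_sum fun b _ => sum_le_sum fun l _ => ?_
              split_ifs with h
              · simp only [rate]
                rw [div_mul_eq_mul_div]
                refine div_le_div_of_nonneg_right (mul_le_mul_of_nonneg_left ?_
                  (base_pos B k).le) (Z_pos c).le
                refine Real.rpow_le_rpow (div_nonneg (lvl_pos hT l).le hT.le)
                  (div_le_div_of_nonneg_right (lt_of_piece_pos ?_).le hT.le) hp0.le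
                exact pos_of_mul_pos_right h (nu_nonneg a c)
              · exact mul_nonneg hbz (Real.rpow_nonneg (div_nonneg (part_nonneg _ _) hT.le) _)
          _ = base B k / Z u R c * ((k : ℝ) *
              ((∑ i, ∑ b, |part b ((u a - u c) i) - part b ((0 : Lsp p m) i)| ^ p) / top B R ^ p)) := by
              simp only [sum_const, card_univ, Fintype.card_fin, nsmul_eq_mul, sum_div, mul_sum]
              refine sum_congr rfl fun i _ => sum_congr rfl fun b _ => ?_
              have e0 : part b ((0 : Lsp p m) i) = 0 := by cases b <;> simp [part]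
              rw [e0, sub_zero, abs_of_nonneg (part_nonneg _ _), PiLp.sub_apply,
                Real.div_rpow (part_nonneg _ _) hT.le]
              ring
          _ ≤ _ := by
              refine mul_le_mul_of_nonneg_left ?_ hbz
              rw [show 2 * (k : ℝ) * ((rad B + 1) * R / top B R) ^ p
                = (k : ℝ) * (2 * ((rad B + 1) * R) ^ p / top B R ^ p) by
                rw [Real.div_rpow (by rw [rad]; positivity) hT.le]; ring]
              refine mul_le_mul_of_nonneg_left (div_le_div_of_nonneg_right
                ((sum_parts_rpow_le _ _).trans ?_) (Real.rpow_nonneg hT.le _)) (Nat.cast_nonneg k)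
              rw [sub_zero]
              exact mul_le_mul_of_nonneg_left
                (Real.rpow_le_rpow (norm_nonneg _) hd hp0.le) (by norm_num)
      have h2 : ((rad B + 1) * R / top B R) ^ p ≤ 1 := by
        refine Real.rpow_le_one (div_nonneg (by rw [rad]; positivity) hT.le) ?_ hp0.le
        rw [div_le_one hT, top]
        linarith
      have h3 : (if 0 < feat u B R k a (.inr c) then rate u B R k (.inr c) else 0)
          ≤ base B k / Z u R c := by
        split
        · exact le_rfl
        · exact hbz
      refine (add_le_add (h1.trans (mul_le_mul_of_nonneg_left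
        (mul_le_of_le_one_right (by positivity) h2) hbz)) h3).trans ?_
      rw [show 2 * ((k : ℝ) + 1) * base B k / Z u R c
        = base B k / Z u R c * (2 * (k : ℝ)) + base B k / Z u R c + base B k / Z u R c by ring]
      linarith
    · rw [if_neg hd]
      have h0 : nu u B R a c = 0 := by
        by_contra h; exact hd (dst_le_of_nu hR h)
      simp [feat, h0]
  refine (sum_le_sum fun c _ => hc c).trans ?_
  rw [← sum_filter]
  set N := {c ∈ (univ : Finset ι) | dst u a c ≤ (rad B + 1) * R} with hN
  have hcard : (N.card : ℝ) ≤ Real.exp (rad B + 1) * Z u R a := by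
    rw [Z, mul_sum]
    refine le_trans ?_ (sum_le_sum_of_subset_of_nonneg (s := N) (subset_univ N) fun c _ _ =>
      mul_nonneg (Real.exp_pos _).le (Real.exp_pos _).le)
    rw [← nsmul_one]
    refine card_nsmul_le_sum _ _ _ fun c hc => ?_
    rw [← Real.exp_add]
    refine Real.one_le_exp ?_
    have := (div_le_iff₀ hR).2 (mem_filter.1 hc).2
    linarith
  have hterm : ∀ c ∈ N, 2 * ((k : ℝ) + 1) * base B k / Z u R c
      ≤ 2 * ((k : ℝ) + 1) * base B k * (Real.exp (rad B + 1) / Z u R a) := by
    intro c hc
    rw [div_eq_mul_one_div]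
    refine mul_le_mul_of_nonneg_left ?_ (by have := base_pos B k; positivity)
    rw [div_le_div_iff₀ (Z_pos c) (Z_pos a), one_mul]
    exact (Z_le_exp_mul hR a c).trans (mul_le_mul_of_nonneg_right (Real.exp_le_exp.2
      ((div_le_iff₀ hR).2 (mem_filter.1 hc).2)) (Z_pos c).le)
  refine (sum_le_card_nsmul _ _ _ hterm).trans ?_
  rw [nsmul_eq_mul]
  refine (mul_le_mul_of_nonneg_right hcard (by have := base_pos B k
                                               have := Z_pos (u := u) (R := R) a
                                               positivity)).trans_eq ?_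
  rw [base, show 2 * (rad B + 1) = (rad B + 1) + (rad B + 1) by ring,
    Real.exp_add (rad B + 1) (rad B + 1)]
  have := (Z_pos (u := u) (R := R) a).ne'
  have hE := Real.exp_pos (rad B + 1)
  generalize Real.exp (rad B + 1) = E at hE
  field_simp
  ring

theorem sum_feat_rpow_le (hB : 0 ≤ B) (hR : 0 < R) (a : ι) :
    ∑ e : Ft ι m k, feat u B R k a e ^ p ≤ 3 * top B R ^ p := by
  have hp1 := one_le_p (p := p)
  have hp0 : 0 < p := by linarith
  have hT := top_pos hB hR
  rw [sum_split]
  calc _ ≤ ∑ c, nu u B R a c ^ p * (3 * top B R ^ p) := by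
        refine sum_le_sum fun c _ => ?_
        simp only [feat, Real.mul_rpow (nu_nonneg a c) (piece_nonneg _ _),
          Real.mul_rpow (nu_nonneg a c) hT.le, ← mul_sum, ← mul_add]
        by_cases h : nu u B R a c = 0
        · rw [h, Real.zero_rpow hp0.ne', zero_mul, zero_mul]
        refine mul_le_mul_of_nonneg_left ?_ (Real.rpow_nonneg (nu_nonneg a c) _)
        have h1 : ∀ i b, ∑ l : Fin k, piece (lvl (top B R) l) (part b (u a i - u c i)) ^ p
            ≤ |part b ((u a - u c) i) - part b ((0 : Lsp p m) i)| ^ p := by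
          intro i b
          have e0 : part b ((0 : Lsp p m) i) = 0 := by cases b <;> simp [part]
          have e1 : ∀ l : ℕ, piece (lvl (top B R) l) 0 = 0 := fun l => by
            rw [piece, max_eq_left]
            exact (min_le_left _ _).trans (by linarith [lvl_pos hT l])
          rw [e0, PiLp.sub_apply, Fin.sum_univ_eq_sum_range
            (fun l => piece (lvl (top B R) l) (part b (u a i - u c i)) ^ p)]
          refine le_of_eq_of_le (sum_congr rfl fun l _ => ?_)
            (sum_piece_rpow_le hT hp1 k 0 (part b (u a i - u c i)))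
          rw [e1, sub_zero, abs_of_nonneg (piece_nonneg _ _)]
        have h2 := (sum_le_sum fun i _ => sum_le_sum fun b _ => h1 i b).trans
          (sum_parts_rpow_le (u a - u c) 0)
        rw [sub_zero] at h2
        have h3 : ‖u a - u c‖ ^ p ≤ top B R ^ p := by
          refine Real.rpow_le_rpow (norm_nonneg _) ((dst_le_of_nu hR h).trans ?_) hp0.le
          rw [top]
          linarith
        linarith
    _ ≤ _ := by
        rw [← sum_mul]
        exact mul_le_of_le_one_left (by positivity) (sum_nu_rpow_le a)

theorem feat_moment_le (hB : 0 ≤ B) (hR : 0 < R) (a b : ι) :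
    ∑ e : Ft ι m k, |feat u B R k a e - feat u B R k b e| ^ p ≤ upC p B * dst u a b ^ p ∧
    ∑ e : Ft ι m k, |feat u B R k a e - feat u B R k b e| ^ p ≤ upC p B * R ^ p := by
  have hp1 := one_le_p (p := p)
  have hp0 : 0 < p := by linarith
  have hT := top_pos hB hR
  have hd := dst_nonneg u a b
  have hbase : (1 : ℝ) ≤ 10 * (rad B + 2) := by rw [rad]; linarith
  have hC : 1 ≤ (10 * (rad B + 2)) ^ p := Real.one_le_rpow hbase hp0.le
  have hall : ∑ e : Ft ι m k, |feat u B R k a e - feat u B R k b e| ^ p
      ≤ upC p B * R ^ p := by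
    calc _ ≤ ∑ e : Ft ι m k, 2 ^ p * (feat u B R k a e ^ p + feat u B R k b e ^ p) := by
          refine sum_le_sum fun e _ => (Real.rpow_le_rpow (abs_nonneg _) ?_ hp0.le).trans
            (add_rpow_le (feat_nonneg hB hR a e) (feat_nonneg hB hR b e) hp1)
          refine (abs_sub _ _).trans_eq ?_
          rw [abs_of_nonneg (feat_nonneg hB hR a e), abs_of_nonneg (feat_nonneg hB hR b e)]
      _ ≤ 2 ^ p * (3 * top B R ^ p + 3 * top B R ^ p) := by
          rw [← mul_sum, sum_add_distrib]
          exact mul_le_mul_of_nonneg_left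
            (add_le_add (sum_feat_rpow_le hB hR a) (sum_feat_rpow_le hB hR b)) (by positivity)
      _ ≤ _ := by
          rw [upC, top, Real.mul_rpow (by rw [rad]; linarith) hR.le, mul_assoc (2 ^ p)]
          refine mul_le_mul_of_nonneg_left ?_ (by positivity)
          have h : (rad B + 2) ^ p ≤ (10 * (rad B + 2)) ^ p :=
            Real.rpow_le_rpow (by rw [rad]; linarith) (by rw [rad]; linarith) hp0.le
          have hR0 := Real.rpow_nonneg hR.le p
          have := mul_le_mul_of_nonneg_right h hR0
          have := mul_nonneg (Real.rpow_nonneg (by linarith : (0:ℝ) ≤ 10 * (rad B + 2)) p) hR0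
          linarith
  refine ⟨?_, hall⟩
  rcases le_total R (dst u a b) with hdR | hdR
  · exact hall.trans (mul_le_mul_of_nonneg_left (Real.rpow_le_rpow hR.le hdR hp0.le)
      (by rw [upC]; positivity))
  rw [sum_split]
  calc _ ≤ ∑ c, 2 ^ p * (nu u B R a c ^ p * (2 * dst u a b ^ p)
        + |nu u B R a c - nu u B R b c| ^ p * (3 * top B R ^ p)) := by
        refine sum_le_sum fun c _ => ?_
        have hab : ∀ x y x' y' : ℝ, 0 ≤ x → 0 ≤ y' →
            |x * y - x' * y'| ^ p ≤ 2 ^ p * (x ^ p * |y - y'| ^ p + |x - x'| ^ p * y' ^ p) := by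
          intro x y x' y' hx hy'
          rw [← Real.mul_rpow hx (abs_nonneg _), ← Real.mul_rpow (abs_nonneg _) hy']
          refine le_trans (Real.rpow_le_rpow (abs_nonneg _) ?_ hp0.le)
            (add_rpow_le (by positivity) (by positivity) hp1)
          rw [show x * y - x' * y' = x * (y - y') + (x - x') * y' by ring]
          refine (abs_add_le _ _).trans_eq ?_
          rw [abs_mul, abs_mul, abs_of_nonneg hx, abs_of_nonneg hy']
        by_cases hz : nu u B R a c = 0 ∧ nu u B R b c = 0
        · simp only [feat, hz.1, hz.2, zero_mul, sub_zero, abs_zero, Real.zero_rpow hp0.ne',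
            sum_const_zero, add_zero, mul_zero, le_refl]
        have hbc : dst u b c ≤ top B R := by
          rw [top]
          rcases not_and_or.1 hz with h | h
          · linarith [dst_le_of_nu hR h, dst_tri u b a c, dst_comm u a b]
          · linarith [dst_le_of_nu hR h]
        have h1 : ∀ i s, ∑ l : Fin k, |feat u B R k a (.inl (c, i, l, s))
            - feat u B R k b (.inl (c, i, l, s))| ^ p
            ≤ 2 ^ p * (nu u B R a c ^ p
                * |part s ((u a - u c) i) - part s ((u b - u c) i)| ^ p
              + |nu u B R a c - nu u B R b c| ^ p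
                * |part s ((u b - u c) i) - part s ((0 : Lsp p m) i)| ^ p) := by
          intro i s
          have e0 : part s ((0 : Lsp p m) i) = 0 := by cases s <;> simp [part]
          have e1 : ∀ l : ℕ, piece (lvl (top B R) l) 0 = 0 := fun l => by
            rw [piece, max_eq_left]
            exact (min_le_left _ _).trans (by linarith [lvl_pos hT l])
          simp only [feat, PiLp.sub_apply, e0]
          refine (sum_le_sum fun l _ => hab _ _ _ _ (nu_nonneg a c) (piece_nonneg _ _)).trans ?_
          rw [← mul_sum, sum_add_distrib, ← mul_sum, ← mul_sum]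
          refine mul_le_mul_of_nonneg_left (add_le_add
            (mul_le_mul_of_nonneg_left ?_ (Real.rpow_nonneg (nu_nonneg a c) _))
            (mul_le_mul_of_nonneg_left ?_ (Real.rpow_nonneg (abs_nonneg _) _))) (by positivity)
          · rw [Fin.sum_univ_eq_sum_range (fun l => |piece (lvl (top B R) l) (part s (u a i - u c i))
              - piece (lvl (top B R) l) (part s (u b i - u c i))| ^ p)]
            exact sum_piece_rpow_le hT hp1 k _ _
          · rw [Fin.sum_univ_eq_sum_range
              (fun l => piece (lvl (top B R) l) (part s (u b i - u c i)) ^ p)]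
            refine le_of_eq_of_le (sum_congr rfl fun l _ => ?_)
              (sum_piece_rpow_le hT hp1 k 0 (part s (u b i - u c i)))
            rw [e1, sub_zero, abs_of_nonneg (piece_nonneg _ _)]
        have h2 : |feat u B R k a (.inr c) - feat u B R k b (.inr c)| ^ p
            = |nu u B R a c - nu u B R b c| ^ p * top B R ^ p := by
          simp only [feat]
          rw [← sub_mul, abs_mul, abs_of_pos hT, Real.mul_rpow (abs_nonneg _) hT.le]
        refine (add_le_add (sum_le_sum fun i _ => sum_le_sum fun s _ => h1 i s) h2.le).trans ?_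
        simp only [← mul_sum, sum_add_distrib]
        have h3 := sum_parts_rpow_le (u a - u c) (u b - u c)
        have h4 := sum_parts_rpow_le (u b - u c) 0
        rw [sub_sub_sub_cancel_right] at h3
        rw [sub_zero] at h4
        have h5 : ‖u b - u c‖ ^ p ≤ top B R ^ p := Real.rpow_le_rpow (norm_nonneg _) hbc hp0.le
        have hN : 0 ≤ |nu u B R a c - nu u B R b c| ^ p := Real.rpow_nonneg (abs_nonneg _) _
        have h6 := mul_le_mul_of_nonneg_left h3 (Real.rpow_nonneg (nu_nonneg (u := u) (B := B)
          (R := R) a c) p)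
        have h7 := mul_le_mul_of_nonneg_left
          (h4.trans (mul_le_mul_of_nonneg_left h5 zero_le_two)) hN
        have h8 : (1 : ℝ) ≤ 2 ^ p := Real.one_le_rpow (by norm_num) hp0.le
        have h9 := mul_le_mul_of_nonneg_right h8 (mul_nonneg hN (Real.rpow_nonneg hT.le p))
        have h10 := mul_le_mul_of_nonneg_left (add_le_add h6 h7)
          (by positivity : (0 : ℝ) ≤ 2 ^ p)
        rw [dst]
        linarith
    _ ≤ 2 ^ p * (1 * (2 * dst u a b ^ p) + 2 * (10 * dst u a b / R) ^ p * (3 * top B R ^ p)) := by
        rw [← mul_sum, sum_add_distrib, ← sum_mul, ← sum_mul]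
        exact mul_le_mul_of_nonneg_left (add_le_add
          (mul_le_mul_of_nonneg_right (sum_nu_rpow_le a) (by positivity))
          (mul_le_mul_of_nonneg_right (sum_abs_nu_sub_rpow hR a b) (by positivity))) (by positivity)
    _ ≤ _ := by
        have e : (10 * dst u a b / R) ^ p * top B R ^ p
            = (10 * (rad B + 2)) ^ p * dst u a b ^ p := by
          rw [← Real.mul_rpow (by positivity) hT.le,
            ← Real.mul_rpow (by linarith) hd, top]
          congr 1
          field_simp
        rw [upC, mul_assoc (2 ^ p)]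
        refine mul_le_mul_of_nonneg_left ?_ (by positivity)
        have h := mul_le_mul_of_nonneg_right hC (Real.rpow_nonneg hd p)
        linarith

theorem dst_rpow_le_feat (hB : 0 ≤ B) (hR : 0 < R) {a b : ι}
    (ha : growth u R a ≤ B) (hab : dst u a b ≤ R) :
    dst u a b ^ p ≤ lowC p * (∑ e : Ft ι m k, |feat u B R k a e - feat u B R k b e| ^ p
      + m * (2 * lvl (top B R) k) ^ p) := by
  have hp1 := one_le_p (p := p)
  have hp0 : 0 < p := by linarith
  have hT := top_pos hB hR
  have hd := dst_nonneg u a b
  set T := (2 * lvl (top B R) k) ^ p with hTail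
  have hT0 : 0 ≤ T := Real.rpow_nonneg (by linarith [lvl_pos hT k]) _
  have hhalf : 1 / 2 ≤ ∑ c, nu u B R a c ^ p := by
    simp only [nu, beta_eq_one ha, one_mul]
    exact half_le_sum_kap hR hp0.ne' (by linarith)
  have hper : ∀ c, nu u B R a c ^ p * dst u a b ^ p
      ≤ 4 ^ p * 3 ^ p * (2 ^ (p + 1) * ((∑ i, ∑ s, ∑ l : Fin k,
        |feat u B R k a (.inl (c, i, l, s)) - feat u B R k b (.inl (c, i, l, s))| ^ p)
        + |feat u B R k a (.inr c) - feat u B R k b (.inr c)| ^ p)
        + nu u B R a c ^ p * (2 * m * T)) := by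
    intro c
    by_cases h : nu u B R a c = 0
    · rw [h, Real.zero_rpow hp0.ne', zero_mul]
      refine mul_nonneg (by positivity) ?_
      simp only [zero_mul, add_zero]
      exact mul_nonneg (by positivity) (add_nonneg
        (sum_nonneg fun i _ => sum_nonneg fun s _ => sum_nonneg fun l _ =>
          Real.rpow_nonneg (abs_nonneg _) _) (Real.rpow_nonneg (abs_nonneg _) _))
    have hac := dst_le_of_nu hR h
    have hbc : dst u b c ≤ top B R := by
      rw [top]; linarith [dst_tri u b a c, dst_comm u a b]
    have hcoord : ∀ x, dst u x c ≤ top B R → ∀ i s, part s (u x i - u c i) ≤ 2 * top B R := by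
      intro x hx i s
      refine (part_le_abs s _).trans ?_
      have h1 : |u x i - u c i| ^ p ≤ ‖u x - u c‖ ^ p := by
        rw [norm_rpow]
        exact single_le_sum (f := fun j => |(u x - u c) j| ^ p)
          (fun j _ => Real.rpow_nonneg (abs_nonneg _) _) (mem_univ i)
      have h2 := (Real.rpow_le_rpow_iff (abs_nonneg _) (norm_nonneg _) hp0).1 h1
      simp only [dst] at hx
      linarith
    have hac' : dst u a c ≤ top B R := by rw [top]; linarith
    have hi : ∀ i, |(u a - u b) i| ^ p ≤ 4 ^ p * 3 ^ p * ((∑ s, ∑ l : Fin k,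
        |piece (lvl (top B R) l) (part s (u a i - u c i))
          - piece (lvl (top B R) l) (part s (u b i - u c i))| ^ p) + 2 * T) := by
      intro i
      set za := fun s => part s (u a i - u c i) with hza
      set zb := fun s => part s (u b i - u c i) with hzb
      have h1 : |(u a - u b) i| ^ p ≤ 2 ^ p * (|za true - zb true| ^ p
          + |za false - zb false| ^ p) := by
        refine le_trans (Real.rpow_le_rpow (abs_nonneg _) ?_ hp0.le)
          (add_rpow_le (abs_nonneg _) (abs_nonneg _) hp1)
        refine le_of_eq_of_le ?_ (abs_sub_le_parts (u a i - u c i) (u b i - u c i))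
        rw [PiLp.sub_apply, sub_sub_sub_cancel_right]
      have h2 : ∀ s, |za s - zb s| ^ p ≤ 2 ^ p * (3 ^ p * ∑ l : Fin k,
          |piece (lvl (top B R) l) (za s) - piece (lvl (top B R) l) (zb s)| ^ p + T) := by
        intro s
        refine le_trans (Real.rpow_le_rpow (abs_nonneg _) (abs_sub_le_stack hT k
          (part_nonneg _ _) (hcoord b hbc i s) (part_nonneg _ _) (hcoord a hac' i s)) hp0.le)
          ((add_rpow_le (abs_nonneg _) (by linarith [lvl_pos hT k]) hp1).trans ?_)
        refine mul_le_mul_of_nonneg_left (add_le_add ?_ le_rfl) (by positivity)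
        rw [Fin.sum_univ_eq_sum_range (fun l => |piece (lvl (top B R) l) (za s)
          - piece (lvl (top B R) l) (zb s)| ^ p)]
        exact abs_stack_rpow_le hT hp1 k _ _
      have e4 : (4 : ℝ) ^ p = 2 ^ p * 2 ^ p := by
        rw [← Real.mul_rpow (by norm_num) (by norm_num)]; norm_num
      refine h1.trans ((mul_le_mul_of_nonneg_left (add_le_add (h2 true) (h2 false))
        (by positivity)).trans ?_)
      rw [Fintype.sum_bool, e4]
      have h3 : (1 : ℝ) ≤ 3 ^ p := Real.one_le_rpow (by norm_num) hp0.le
      have h4 := mul_le_mul_of_nonneg_left (mul_le_mul_of_nonneg_right h3 hT0)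
        (by positivity : (0 : ℝ) ≤ 2 ^ p * 2 ^ p)
      linarith
    have hν := Real.rpow_nonneg (nu_nonneg (u := u) (B := B) (R := R) a c) p
    have hpc : ∀ i s (l : Fin k), nu u B R a c ^ p * |piece (lvl (top B R) l) (part s (u a i - u c i))
        - piece (lvl (top B R) l) (part s (u b i - u c i))| ^ p
        ≤ 2 ^ p * (|feat u B R k a (.inl (c, i, l, s)) - feat u B R k b (.inl (c, i, l, s))| ^ p
          + |nu u B R a c - nu u B R b c| ^ p
            * piece (lvl (top B R) l) (part s (u b i - u c i)) ^ p) := by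
      intro i s l
      simp only [feat]
      set x := piece (lvl (top B R) l) (part s (u a i - u c i))
      set y := piece (lvl (top B R) l) (part s (u b i - u c i))
      have hy : 0 ≤ y := piece_nonneg _ _
      rw [← Real.mul_rpow (nu_nonneg a c) (abs_nonneg _), ← Real.mul_rpow (abs_nonneg _) hy]
      refine le_trans (Real.rpow_le_rpow (mul_nonneg (nu_nonneg a c) (abs_nonneg _)) ?_ hp0.le)
        (add_rpow_le (abs_nonneg _) (by positivity) hp1)
      rw [← abs_of_nonneg (nu_nonneg (u := u) (B := B) (R := R) a c), ← abs_mul,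
        abs_of_nonneg (nu_nonneg (u := u) (B := B) (R := R) a c),
        show nu u B R a c * (x - y) = (nu u B R a c * x - nu u B R b c * y)
          + -((nu u B R a c - nu u B R b c) * y) by ring]
      refine (abs_add_le _ _).trans (le_of_eq ?_)
      rw [abs_neg, abs_mul, abs_of_nonneg hy]
    have hy2 : ∑ i, ∑ s, ∑ l : Fin k, piece (lvl (top B R) l) (part s (u b i - u c i)) ^ p
        ≤ 2 * top B R ^ p := by
      have e1 : ∀ l : ℕ, piece (lvl (top B R) l) 0 = 0 := fun l => by
        rw [piece, max_eq_left]
        exact (min_le_left _ _).trans (by linarith [lvl_pos hT l])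
      refine le_trans (sum_le_sum fun i _ => sum_le_sum fun s _ => ?_)
        ((sum_parts_rpow_le (u b - u c) 0).trans (mul_le_mul_of_nonneg_left
          (by rw [sub_zero]; exact Real.rpow_le_rpow (norm_nonneg _) hbc hp0.le) zero_le_two))
      have e0 : part s ((0 : Lsp p m) i) = 0 := by cases s <;> simp [part]
      rw [e0, PiLp.sub_apply, Fin.sum_univ_eq_sum_range
        (fun l => piece (lvl (top B R) l) (part s (u b i - u c i)) ^ p)]
      refine le_of_eq_of_le (sum_congr rfl fun l _ => ?_)
        (sum_piece_rpow_le hT hp1 k 0 (part s (u b i - u c i)))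
      rw [e1, sub_zero, abs_of_nonneg (piece_nonneg _ _)]
    have hscal : |feat u B R k a (.inr c) - feat u B R k b (.inr c)| ^ p
        = |nu u B R a c - nu u B R b c| ^ p * top B R ^ p := by
      simp only [feat]
      rw [← sub_mul, abs_mul, abs_of_pos hT, Real.mul_rpow (abs_nonneg _) hT.le]
    have hsum : nu u B R a c ^ p * ∑ i, ∑ s, ∑ l : Fin k,
        |piece (lvl (top B R) l) (part s (u a i - u c i))
          - piece (lvl (top B R) l) (part s (u b i - u c i))| ^ p
        ≤ 2 ^ (p + 1) * ((∑ i, ∑ s, ∑ l : Fin k,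
          |feat u B R k a (.inl (c, i, l, s)) - feat u B R k b (.inl (c, i, l, s))| ^ p)
          + |feat u B R k a (.inr c) - feat u B R k b (.inr c)| ^ p) := by
      simp only [mul_sum]
      refine (sum_le_sum fun i _ => sum_le_sum fun s _ => sum_le_sum fun l _ => hpc i s l).trans ?_
      simp only [← mul_sum, sum_add_distrib]
      rw [hscal, Real.rpow_add (by norm_num), Real.rpow_one, mul_assoc (2 ^ p)]
      refine mul_le_mul_of_nonneg_left ?_ (by positivity)
      have h1 := mul_le_mul_of_nonneg_left hy2
        (Real.rpow_nonneg (abs_nonneg (nu u B R a c - nu u B R b c)) p)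
      have h2 : 0 ≤ ∑ i, ∑ s, ∑ l : Fin k,
          |feat u B R k a (.inl (c, i, l, s)) - feat u B R k b (.inl (c, i, l, s))| ^ p :=
        sum_nonneg fun i _ => sum_nonneg fun s _ => sum_nonneg fun l _ =>
          Real.rpow_nonneg (abs_nonneg _) _
      linarith
    rw [dst, norm_rpow, mul_sum]
    refine (sum_le_sum fun i _ => mul_le_mul_of_nonneg_left (hi i) hν).trans ?_
    simp only [mul_add, sum_add_distrib, sum_const, card_univ, Fintype.card_fin, nsmul_eq_mul,
      ← mul_sum]
    have := mul_le_mul_of_nonneg_left hsum (by positivity : (0 : ℝ) ≤ 4 ^ p * 3 ^ p)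
    linarith
  set U := ∑ e : Ft ι m k, |feat u B R k a e - feat u B R k b e| ^ p with hU
  have htot := sum_le_sum fun c (_ : c ∈ (univ : Finset ι)) => hper c
  rw [← sum_mul, ← mul_sum, sum_add_distrib, ← mul_sum, ← sum_mul,
    ← sum_split (fun e => |feat u B R k a e - feat u B R k b e| ^ p), ← hU] at htot
  have h1 := mul_le_mul_of_nonneg_right hhalf (Real.rpow_nonneg hd p)
  have h2 : (∑ c, nu u B R a c ^ p) * (2 * m * T) ≤ 2 ^ (p + 1) * (m * T) := by
    have h3 := mul_le_mul_of_nonneg_right (sum_nu_rpow_le (u := u) (B := B) (R := R) a)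
      (by positivity : (0 : ℝ) ≤ 2 * m * T)
    have h4 : (2 : ℝ) ≤ 2 ^ (p + 1) := by
      calc (2 : ℝ) = 2 ^ (1 : ℝ) := (Real.rpow_one _).symm
        _ ≤ _ := Real.rpow_le_rpow_of_exponent_le (by norm_num) (by linarith)
    have h5 := mul_le_mul_of_nonneg_right h4 (by positivity : (0 : ℝ) ≤ m * T)
    linarith
  have hU0 : 0 ≤ U := sum_nonneg fun e _ => Real.rpow_nonneg (abs_nonneg _) _
  have h6 := mul_le_mul_of_nonneg_left h2 (by positivity : (0 : ℝ) ≤ 4 ^ p * 3 ^ p)
  have h7 : 0 ≤ 4 ^ p * 3 ^ p * 2 ^ (p + 1) * (U + m * T) := by positivity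
  rw [lowC]
  linarith

end Vale.Agent.P249.Scales
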