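import Vale.Agent.P249.Scales.OneScale

/-!
# P249: gluing the scales

Scales congruent modulo `P` are added; a pair sees one of them and a geometric tail.
-/

open Finset

namespace Vale.Agent.P249.Scales

variable {p : ℝ} [Fact (1 ≤ ENNReal.ofReal p)]

theorem sum_zpow_le (T : Finset ℤ) {b : ℤ} (h : ∀ s ∈ T, s < b) :
    ∑ s ∈ T, (2 : ℝ) ^ s ≤ 2 ^ b := by
  classical
  induction T using Finset.induction_on_max generalizing b with
  | empty => simp only [sum_empty]; positivity
  | insert a T hlt ih =>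
    have hab : a < b := h a (mem_insert_self _ _)
    rw [sum_insert fun ha => lt_irrefl _ (hlt a ha)]
    have h2 : (2 : ℝ) ^ (a + 1) = 2 ^ a + 2 ^ a := by rw [zpow_add_one₀ two_ne_zero]; ring
    have h3 : (2 : ℝ) ^ (a + 1) ≤ 2 ^ b := zpow_le_zpow_right₀ (by norm_num) (by omega)
    linarith [ih hlt]

theorem glue {q : ℕ} (hq : 0 < q) :
    ∃ D₁ D₂ C : ℝ, ∃ K₀ : ℕ, 0 < D₁ ∧ 0 < D₂ ∧ 0 ≤ C ∧
      ∀ {ι : Type} [Fintype ι] [Nonempty ι] {m : ℕ} (v : ι → Lsp p m) (K : ℕ), K₀ ≤ K →
        Nat.log 2 (Fintype.card ι) + 1 ≤ q * K →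
        ∃ (d : ℕ) (f : ι → Fin d → ℝ), (d : ℝ) ≤ C * K * dimBound p (Fintype.card ι) m K ∧
          ∀ x y, D₁ * K * dst v x y ^ p ≤ ∑ l, |f x l - f y l| ^ p ∧
            ∑ l, |f x l - f y l| ^ p ≤ D₂ * K * dst v x y ^ p := by
  have hp1 := one_le_p (p := p)
  have hp0 : 0 < p := by linarith
  obtain ⟨A, a, C₁, K₀, hA, ha, hC₁, hone⟩ :=
    one_scale (p := p) (B := 4 * q + 1) (q := q) (by exact_mod_cast hq) (by linarith)
  obtain ⟨V, hV⟩ := pow_unbounded_of_one_lt (max (4 * A / a) 2) (by norm_num : (1 : ℝ) < 2)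
  simp only [max_lt_iff] at hV
  refine ⟨3 / 4 * (a / 2) ^ p, ((3 + 2 * q + V : ℕ) : ℝ) * (2 * A) ^ p,
    ((3 + 2 * q + V : ℕ) : ℝ) * (C₁ + 1), max K₀ 1, by positivity, ?_, by positivity, ?_⟩
  · refine mul_pos (by exact_mod_cast (by omega : 0 < 3 + 2 * q + V)) (Real.rpow_pos_of_pos (by linarith) _)
  intro ι _ _ m v K hK hlog
  simp only [max_le_iff] at hK
  classical
  set n : ℕ := Fintype.card ι with hn
  have hn1 : 1 ≤ n := Fintype.card_pos
  have hlnn : Real.log n ≤ (q : ℝ) * K := by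
    have h1 : (n : ℝ) ≤ 2 ^ (Nat.log 2 n + 1) := by
      exact_mod_cast (Nat.lt_pow_succ_log_self one_lt_two n).le
    have h2 := Real.log_le_log (by exact_mod_cast hn1) h1
    rw [Real.log_pow] at h2
    have h3 : ((Nat.log 2 n + 1 : ℕ) : ℝ) ≤ (q : ℝ) * K := by exact_mod_cast hlog
    have h4 := mul_le_mul_of_nonneg_left Real.log_two_lt_d9.le
      (Nat.cast_nonneg (Nat.log 2 n + 1) : (0 : ℝ) ≤ _)
    linarith [(Nat.cast_nonneg (Nat.log 2 n + 1) : (0 : ℝ) ≤ _)]
  obtain ⟨N, hN⟩ : ∃ N : ℕ, N = ⌈C₁ * dimBound p n m K⌉₊ := ⟨_, rfl⟩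
  choose Ψ hΨ using fun s : ℤ => hone v ((2 : ℝ) ^ s) K (by positivity) hK.1 hlnn N
    (by rw [hN]; exact Nat.le_ceil _)
  let s₀ : ι → ι → ℤ := fun x y => Int.clog 2 (dst v x y)
  let S : Finset ℤ := (univ : Finset (ι × ι)).biUnion fun xy =>
    (range K).image fun t : ℕ => s₀ xy.1 xy.2 + t
  set P : ℕ := 3 * K + 2 * (Nat.log 2 n + 1) + V with hP
  have hP0 : 0 < P := by omega
  have hPle : P ≤ (3 + 2 * q + V) * K := by
    have h1 : V ≤ V * K := Nat.le_mul_of_pos_right V hK.2
    have h2 : (3 + 2 * q + V) * K = 3 * K + 2 * (q * K) + V * K := by ring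
    omega
  let cls : ℤ → Fin P := fun s => ⟨(s % (P : ℤ)).toNat, by
    have h1 := Int.emod_nonneg s (show (P : ℤ) ≠ 0 by omega)
    have h2 := Int.emod_lt_of_pos s (show (0 : ℤ) < P by omega)
    omega⟩
  let F : ι → Fin P → Lsp p N := fun x j => ∑ s ∈ S.filter (fun s => cls s = j), Ψ s x
  let e := finProdFinEquiv (m := P) (n := N)
  refine ⟨P * N, fun x l => F x (e.symm l).1 (e.symm l).2, ?_, fun x y => ?_⟩
  · have h1 : (N : ℝ) ≤ (C₁ + 1) * dimBound p n m K := by
      have hb : 1 ≤ dimBound p n m K := by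
        rw [dimBound]
        have : 0 ≤ Real.log n := Real.log_nonneg (by exact_mod_cast hn1)
        refine le_add_of_nonneg_left ?_
        positivity
      have := Nat.ceil_lt_add_one (mul_nonneg hC₁ (zero_le_one.trans hb))
      rw [← hN] at this
      linarith
    have h2 : (P : ℝ) ≤ ((3 + 2 * q + V : ℕ) : ℝ) * K := by exact_mod_cast hPle
    have := mul_le_mul h2 h1 (Nat.cast_nonneg N) (by positivity)
    push_cast at this ⊢
    linarith
  have hsum : ∑ l, |F x (e.symm l).1 (e.symm l).2 - F y (e.symm l).1 (e.symm l).2| ^ p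
      = ∑ j, ‖F x j - F y j‖ ^ p := by
    rw [Equiv.sum_comp e.symm (fun jl => |F x jl.1 jl.2 - F y jl.1 jl.2| ^ p),
      Fintype.sum_prod_type]
    exact sum_congr rfl fun j _ => by rw [norm_rpow]; simp
  rw [hsum]
  have hd0 := dst_nonneg v x y
  rcases hd0.eq_or_lt with hd | hd
  · have hz : ∀ j, F x j - F y j = 0 := fun j => by
      simp only [F, ← sum_sub_distrib]
      refine sum_eq_zero fun s _ => norm_le_zero_iff.1 ?_
      have := (hΨ s x y).1
      rwa [← hd, mul_zero] at this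
    simp only [hz, ← hd, norm_zero, Real.zero_rpow hp0.ne', mul_zero, sum_const_zero, le_refl,
      and_self]
  set σ : ℤ := s₀ x y with hσ
  have hσhi : dst v x y ≤ (2 : ℝ) ^ σ := by
    simpa using Int.self_le_zpow_clog one_lt_two (dst v x y)
  have hσlo : (2 : ℝ) ^ σ < 2 * dst v x y := by
    have h := Int.zpow_pred_clog_lt_self one_lt_two hd
    rw [zpow_sub_one₀ (by norm_num)] at h
    push_cast at h
    simp only [hσ, s₀]
    linarith
  set b : ℤ := σ - V with hb
  have htop : ∀ s, b + P ≤ s → Ψ s x = Ψ s y := by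
    intro s hs
    refine (hΨ s x y).2.2.1 (hσhi.trans ?_)
    rw [le_div_iff₀ (by positivity), le_div_iff₀ (by positivity)]
    have h1 : (n : ℝ) ^ 2 ≤ 2 ^ (2 * (Nat.log 2 n + 1)) := by
      rw [mul_comm 2, pow_mul]
      exact pow_le_pow_left₀ (Nat.cast_nonneg n)
        (by exact_mod_cast (Nat.lt_pow_succ_log_self one_lt_two n).le) 2
    calc (2 : ℝ) ^ σ * (n : ℝ) ^ 2 * 8 ^ K
        ≤ 2 ^ σ * 2 ^ (2 * (Nat.log 2 n + 1)) * 2 ^ (3 * K) := by
          rw [pow_mul (2 : ℝ) 3 K]; norm_num; gcongr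
      _ = 2 ^ (σ + ((2 * (Nat.log 2 n + 1) : ℕ) : ℤ) + ((3 * K : ℕ) : ℤ)) := by
          rw [zpow_add₀ two_ne_zero, zpow_add₀ two_ne_zero, zpow_natCast, zpow_natCast]
      _ ≤ _ := zpow_le_zpow_right₀ (by norm_num) (by
          rw [hb, hP] at hs; push_cast at hs ⊢; omega)
  set ε : ℝ := A * 2 ^ b with hε
  have hεd : ε ≤ a / 2 * dst v x y ∧ ε ≤ A * dst v x y := by
    have h1 : ε * 2 ^ V ≤ A * (2 * dst v x y) := by
      rw [hε, mul_assoc, ← zpow_natCast (2 : ℝ) V, ← zpow_add₀ two_ne_zero, hb, sub_add_cancel]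
      exact mul_le_mul_of_nonneg_left hσlo.le (by linarith)
    have h2 : 4 * A ≤ a * 2 ^ V := by
      have := (div_lt_iff₀ ha).1 hV.1; linarith
    have hε0 : 0 ≤ ε := by positivity
    constructor
    · refine le_of_mul_le_mul_right ?_ (show (0 : ℝ) < 2 ^ V by positivity)
      linarith [mul_le_mul_of_nonneg_right h2 hd0]
    · refine le_of_mul_le_mul_right ?_ (show (0 : ℝ) < 2 ^ V by positivity)
      linarith [mul_le_mul_of_nonneg_left hV.2.le (mul_nonneg (zero_le_one.trans hA) hd0)]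
  let rep : Fin P → ℤ := fun j => b + ((j : ℤ) - b) % (P : ℤ)
  have hrep : ∀ j s, cls s = j → b ≤ s → s < b + P → s = rep j := by
    intro j s hs h1 h2
    have e1 : ((j : ℕ) : ℤ) = s % (P : ℤ) := by
      rw [← hs]; exact Int.toNat_of_nonneg (Int.emod_nonneg s (by omega))
    simp only [rep]
    rw [e1, Int.emod_sub_emod, Int.emod_eq_of_lt (by omega) (by omega)]
    ring
  have hmain : ∀ j, ‖(F x j - F y j)
      - (if rep j ∈ S.filter (fun s => cls s = j) then Ψ (rep j) x - Ψ (rep j) y else 0)‖ ≤ ε := by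
    intro j
    simp only [F, ← sum_sub_distrib]
    set T := S.filter (fun s => cls s = j) with hT
    have e1 : (∑ s ∈ T, (Ψ s x - Ψ s y)) - (if rep j ∈ T then Ψ (rep j) x - Ψ (rep j) y else 0)
        = ∑ s ∈ T.erase (rep j), (Ψ s x - Ψ s y) := by
      by_cases h : rep j ∈ T
      · rw [if_pos h, ← add_sum_erase _ _ h, add_sub_cancel_left]
      · rw [if_neg h, erase_eq_of_notMem h, sub_zero]
    rw [e1, ← sum_filter_add_sum_filter_not (T.erase (rep j)) (fun s => s < b)]
    have e2 : ∑ s ∈ (T.erase (rep j)).filter (fun s => ¬ s < b), (Ψ s x - Ψ s y) = 0 := by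
      refine sum_eq_zero fun s hs => ?_
      rw [mem_filter, mem_erase, hT, mem_filter] at hs
      obtain ⟨⟨hne, -, hc⟩, hsb⟩ := hs
      refine sub_eq_zero.2 (htop s ?_)
      by_contra hlt
      exact hne (hrep j s hc (by omega) (by omega))
    rw [e2, add_zero]
    refine (norm_sum_le _ _).trans ((sum_le_sum fun s _ => (hΨ s x y).2.1).trans ?_)
    rw [← mul_sum]
    exact mul_le_mul_of_nonneg_left (sum_zpow_le _ fun s hs => (mem_filter.1 hs).2) (by linarith)
  constructor
  · -- the good scales of `x` occupy different residues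
    set G := {t ∈ range K | growth v ((2 : ℝ) ^ σ * 2 ^ t) x ≤ 4 * q} with hG
    have hGcard : 3 / 4 * (K : ℝ) ≤ G.card :=
      card_good (u := v) (by positivity) x K (by exact_mod_cast hq) le_rfl hlnn
    have hinj : Set.InjOn (fun t : ℕ => cls (σ + t)) G := by
      intro s hs t ht hst
      have h1 : s < K := mem_range.1 (mem_filter.1 hs).1
      have h2 : t < K := mem_range.1 (mem_filter.1 ht).1
      simp only [cls, Fin.mk.injEq] at hst
      have e1 : (σ + (s : ℤ)) % (P : ℤ) = (σ + (t : ℤ)) % (P : ℤ) := by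
        have := Int.emod_nonneg (σ + (s : ℤ)) (show (P : ℤ) ≠ 0 by omega)
        have := Int.emod_nonneg (σ + (t : ℤ)) (show (P : ℤ) ≠ 0 by omega)
        omega
      rw [Int.emod_eq_emod_iff_emod_sub_eq_zero, add_sub_add_left_eq_sub] at e1
      obtain ⟨k, hk⟩ := Int.dvd_of_emod_eq_zero e1
      rcases lt_trichotomy k 0 with hk0 | hk0 | hk0
      · exfalso
        have : (P : ℤ) * k ≤ -(P : ℤ) := by nlinarith
        omega
      · subst hk0; omega
      · exfalso
        have : (P : ℤ) ≤ (P : ℤ) * k := by nlinarith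
        omega
    calc 3 / 4 * (a / 2) ^ p * K * dst v x y ^ p
        ≤ G.card * ((a / 2) * dst v x y) ^ p := by
          rw [Real.mul_rpow (by linarith) hd0]
          have h := mul_le_mul_of_nonneg_right hGcard
            (by positivity : (0 : ℝ) ≤ (a / 2) ^ p * dst v x y ^ p)
          linarith
      _ ≤ ∑ j ∈ G.image (fun t : ℕ => cls (σ + t)), ‖F x j - F y j‖ ^ p := by
          rw [sum_image hinj, ← nsmul_eq_mul]
          refine card_nsmul_le_sum _ _ _ fun t ht => Real.rpow_le_rpow (by positivity) ?_ hp0.le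
          obtain ⟨htK, htg⟩ := mem_filter.1 ht
          have htK' := mem_range.1 htK
          have hmem : σ + (t : ℤ) ∈ S.filter (fun s => cls s = cls (σ + t)) :=
            mem_filter.2 ⟨mem_biUnion.2 ⟨(x, y), mem_univ _, mem_image.2 ⟨t, htK, rfl⟩⟩, rfl⟩
          have hr : rep (cls (σ + t)) = σ + t :=
            (hrep _ _ rfl (by omega) (by rw [hb, hP]; push_cast; omega)).symm
          have h := hmain (cls (σ + t))
          rw [hr, if_pos hmem] at h
          have e2 : (2 : ℝ) ^ (σ + (t : ℤ)) = 2 ^ σ * 2 ^ t := by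
            rw [zpow_add₀ two_ne_zero, zpow_natCast]
          have h2 := (hΨ (σ + t) x y).2.2.2 (by rw [e2]; linarith) (by
            rw [e2, div_le_iff₀ (by positivity)]
            have h3 : (2 : ℝ) ^ t * 2 ≤ 2 ^ K := by
              rw [← pow_succ]; exact pow_le_pow_right₀ (by norm_num) htK'
            have h4 := mul_le_mul_of_nonneg_right hσlo.le (by positivity : (0 : ℝ) ≤ 2 ^ t)
            have h5 := mul_le_mul_of_nonneg_left h3 hd0
            linarith) (by
            rw [e2]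
            exact hσhi.trans (le_mul_of_one_le_right (by positivity) (one_le_pow₀ (by norm_num))))
          have h6 := norm_sub_norm_le (Ψ (σ + t) x - Ψ (σ + t) y)
            (F x (cls (σ + t)) - F y (cls (σ + t)))
          have h7 := norm_sub_rev (Ψ (σ + t) x - Ψ (σ + t) y)
            (F x (cls (σ + t)) - F y (cls (σ + t)))
          linarith [hεd.1]
      _ ≤ _ := sum_le_sum_of_subset_of_nonneg (subset_univ _)
          fun j _ _ => Real.rpow_nonneg (norm_nonneg _) _
  · have hj : ∀ j, ‖F x j - F y j‖ ^ p ≤ (2 * A) ^ p * dst v x y ^ p := by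
      intro j
      rw [← Real.mul_rpow (by linarith) hd0]
      refine Real.rpow_le_rpow (norm_nonneg _) ?_ hp0.le
      have h := hmain j
      split_ifs at h with hc
      · have := norm_sub_norm_le (F x j - F y j) (Ψ (rep j) x - Ψ (rep j) y)
        linarith [(hΨ (rep j) x y).1, hεd.2]
      · rw [sub_zero] at h
        linarith [hεd.2, mul_nonneg (zero_le_one.trans hA) hd0]
    refine (sum_le_card_nsmul _ _ _ fun j _ => hj j).trans ?_
    rw [card_univ, Fintype.card_fin, nsmul_eq_mul]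
    have h1 : (P : ℝ) ≤ ((3 + 2 * q + V : ℕ) : ℝ) * K := by exact_mod_cast hPle
    have h2 : 0 ≤ (2 * A) ^ p * dst v x y ^ p :=
      mul_nonneg (Real.rpow_nonneg (by linarith) _) (Real.rpow_nonneg hd0 _)
    linarith [mul_le_mul_of_nonneg_right h1 h2]

end Vale.Agent.P249.Scales
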