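import Vale.Agent.P249.Scales.Basic

/-!
# P249: the Laplace kernels of a finite set and their doubling at a scale

`logZ R` is `1/R`-Lipschitz, and over `K` dyadic scales its increments sum to at most `log n`.
-/

open Finset

namespace Vale.Agent.P249.Scales

variable {ι : Type*} [Fintype ι] {V : Type*} [NormedAddCommGroup V] (u : ι → V)

/-- the distance between two of the points -/
def dst (a b : ι) : ℝ := ‖u a - u b‖

omit [Fintype ι] in
theorem dst_nonneg (a b : ι) : 0 ≤ dst u a b := norm_nonneg _

omit [Fintype ι] in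
theorem dst_comm (a b : ι) : dst u a b = dst u b a := norm_sub_rev _ _

omit [Fintype ι] in
theorem dst_self (a : ι) : dst u a a = 0 := by simp [dst]

omit [Fintype ι] in
theorem dst_tri (a b c : ι) : dst u a c ≤ dst u a b + dst u b c :=
  norm_sub_le_norm_sub_add_norm_sub _ _ _

omit [Fintype ι] in
theorem abs_dst_sub (a b c : ι) : |dst u a c - dst u b c| ≤ dst u a b := by
  rw [abs_le]
  constructor <;> linarith [dst_tri u a b c, dst_tri u b a c, dst_comm u a b]

/-- the Laplace partition function -/
noncomputable def Z (R : ℝ) (a : ι) : ℝ := ∑ c, Real.exp (-(dst u a c / R))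

/-- its logarithm -/
noncomputable def logZ (R : ℝ) (a : ι) : ℝ := Real.log (Z u R a)

/-- the growth at scale `R` -/
noncomputable def growth (R : ℝ) (a : ι) : ℝ := logZ u (2 * R) a - logZ u R a

variable {u}

theorem one_le_Z {R : ℝ} (a : ι) : 1 ≤ Z u R a :=
  calc (1 : ℝ) = Real.exp (-(dst u a a / R)) := by simp [dst_self]
    _ ≤ _ := single_le_sum (f := fun c => Real.exp (-(dst u a c / R)))
      (fun c _ => (Real.exp_pos _).le) (mem_univ a)

theorem Z_pos {R : ℝ} (a : ι) : 0 < Z u R a := zero_lt_one.trans_le (one_le_Z a)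

theorem exp_logZ {R : ℝ} (a : ι) : Real.exp (logZ u R a) = Z u R a := Real.exp_log (Z_pos a)

theorem logZ_nonneg {R : ℝ} (a : ι) : 0 ≤ logZ u R a := Real.log_nonneg (one_le_Z a)

theorem logZ_le_log_card {R : ℝ} (hR : 0 < R) (a : ι) :
    logZ u R a ≤ Real.log (Fintype.card ι) := by
  refine Real.log_le_log (Z_pos a) ?_
  refine (sum_le_card_nsmul _ _ 1 fun c _ => ?_).trans_eq (by simp)
  exact Real.exp_le_one_iff.2 (by have := dst_nonneg u a c; simp; positivity)

theorem Z_le_exp_mul {R : ℝ} (hR : 0 < R) (a b : ι) :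
    Z u R a ≤ Real.exp (dst u a b / R) * Z u R b := by
  rw [Z, Z, mul_sum]
  refine sum_le_sum fun c _ => ?_
  rw [← Real.exp_add, Real.exp_le_exp]
  have h := dst_tri u b a c
  rw [dst_comm u b a] at h
  rw [← sub_nonneg, show dst u a b / R + -(dst u b c / R) - -(dst u a c / R)
    = (dst u a b + dst u a c - dst u b c) / R by ring]
  exact div_nonneg (by linarith) hR.le

theorem abs_logZ_sub {R : ℝ} (hR : 0 < R) (a b : ι) :
    |logZ u R a - logZ u R b| ≤ dst u a b / R := by
  have h : ∀ a b, logZ u R a ≤ dst u a b / R + logZ u R b := fun a b => by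
    have := Real.log_le_log (Z_pos a) (Z_le_exp_mul (u := u) hR a b)
    rwa [Real.log_mul (Real.exp_pos _).ne' (Z_pos b).ne', Real.log_exp] at this
  rw [abs_le]
  constructor
  · have := h b a; rw [dst_comm u b a] at this; linarith
  · linarith [h a b]

theorem growth_nonneg {R : ℝ} (hR : 0 < R) (a : ι) : 0 ≤ growth u R a := by
  refine sub_nonneg.2 (Real.log_le_log (Z_pos a) (sum_le_sum fun c _ => Real.exp_le_exp.2 ?_))
  have := dst_nonneg u a c
  gcongr
  linarith

theorem abs_growth_sub {R : ℝ} (hR : 0 < R) (a b : ι) :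
    |growth u R a - growth u R b| ≤ 2 * dst u a b / R := by
  have h1 := abs_le.1 (abs_logZ_sub (u := u) (by linarith : 0 < 2 * R) a b)
  have h2 := abs_le.1 (abs_logZ_sub (u := u) hR a b)
  have h3 : dst u a b / (2 * R) ≤ dst u a b / R :=
    div_le_div_of_nonneg_left (dst_nonneg u a b) hR (by linarith)
  simp only [growth]
  rw [abs_le, show 2 * dst u a b / R = 2 * (dst u a b / R) by ring]
  constructor <;> linarith

theorem sum_growth_le {R : ℝ} (hR : 0 < R) (a : ι) (K : ℕ) :
    ∑ t ∈ range K, growth u (R * 2 ^ t) a ≤ Real.log (Fintype.card ι) := by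
  have e : ∀ t : ℕ, growth u (R * 2 ^ t) a
      = logZ u (R * 2 ^ (t + 1)) a - logZ u (R * 2 ^ t) a := fun t => by
    simp only [growth]; congr 2; ring
  simp only [e]
  rw [sum_range_sub (fun t => logZ u (R * 2 ^ t) a) K]
  linarith [logZ_le_log_card (u := u) (a := a) (by positivity : 0 < R * 2 ^ K),
    logZ_nonneg (u := u) (R := R * 2 ^ 0) a]

/-- at least three quarters of the scales have small growth -/
theorem card_good {R : ℝ} (hR : 0 < R) (a : ι) (K : ℕ) {B q : ℝ} (hq : 0 < q) (hB : 4 * q ≤ B)
    (hK : Real.log (Fintype.card ι) ≤ q * K) :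
    3 / 4 * (K : ℝ) ≤ ({t ∈ range K | growth u (R * 2 ^ t) a ≤ B} : Finset ℕ).card := by
  classical
  have hsplit := card_filter_add_card_filter_not (s := range K)
    (fun t => growth u (R * 2 ^ t) a ≤ B)
  rw [card_range] at hsplit
  set bad := {t ∈ range K | ¬ growth u (R * 2 ^ t) a ≤ B} with hbad
  have h1 : (bad.card : ℝ) * B ≤ ∑ t ∈ bad, growth u (R * 2 ^ t) a := by
    rw [← nsmul_eq_mul]
    exact card_nsmul_le_sum _ _ _ fun t ht => (not_le.1 (mem_filter.1 ht).2).le
  have h2 : ∑ t ∈ bad, growth u (R * 2 ^ t) a ≤ ∑ t ∈ range K, growth u (R * 2 ^ t) a :=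
    sum_le_sum_of_subset_of_nonneg (filter_subset _ _)
      fun t _ _ => growth_nonneg (by positivity) a
  have h3 := (h1.trans h2).trans ((sum_growth_le hR a K).trans hK)
  have h4 : (bad.card : ℝ) * (4 * q) ≤ q * K :=
    le_trans (mul_le_mul_of_nonneg_left hB (Nat.cast_nonneg _)) h3
  have h5 : (bad.card : ℝ) ≤ K / 4 := by nlinarith
  have h6 : (({t ∈ range K | growth u (R * 2 ^ t) a ≤ B} : Finset ℕ).card : ℝ) + bad.card = K := by
    exact_mod_cast hsplit
  linarith

/-- the cutoff radius belonging to a growth bound -/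
noncomputable def rad (B : ℝ) : ℝ := 2 * (B + 2)

/-- one where the growth is at most `B`, zero where it is at least `B + 1` -/
noncomputable def beta (u : ι → V) (B R : ℝ) (a : ι) : ℝ :=
  max 0 (min 1 (B + 1 - growth u R a))

/-- one up to distance `L R`, zero from `(L + 1) R` on -/
noncomputable def cut (u : ι → V) (B R : ℝ) (a c : ι) : ℝ :=
  max 0 (min 1 (rad B + 1 - dst u a c / R))

/-- the normalised Laplace weight, to the power `1 / q` -/
noncomputable def ew (u : ι → V) (q R : ℝ) (a c : ι) : ℝ :=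
  Real.exp (-((dst u a c / R + logZ u R a) / q))

/-- the truncated kernel -/
noncomputable def kap (u : ι → V) (B q R : ℝ) (a c : ι) : ℝ := cut u B R a c * ew u q R a c

variable {B R q : ℝ}

theorem beta_nonneg (a : ι) : 0 ≤ beta u B R a := le_max_left _ _

theorem beta_le_one (a : ι) : beta u B R a ≤ 1 := max_le zero_le_one (min_le_left _ _)

theorem beta_eq_one {a : ι} (h : growth u R a ≤ B) : beta u B R a = 1 := by
  rw [beta, min_eq_left (by linarith), max_eq_right zero_le_one]

theorem growth_of_beta_pos {a : ι} (h : 0 < beta u B R a) : growth u R a ≤ B + 1 := by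
  by_contra h'
  push Not at h'
  rw [beta, min_eq_right (by linarith), max_eq_left (by linarith)] at h
  exact lt_irrefl _ h

theorem abs_beta_sub (hR : 0 < R) (a b : ι) :
    |beta u B R a - beta u B R b| ≤ 2 * dst u a b / R := by
  refine (clip_lip _ _).trans ?_
  rw [show B + 1 - growth u R a - (B + 1 - growth u R b) = growth u R b - growth u R a by ring,
    abs_sub_comm]
  exact abs_growth_sub hR a b

omit [Fintype ι] in
theorem cut_nonneg (a c : ι) : 0 ≤ cut u B R a c := le_max_left _ _

omit [Fintype ι] in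
theorem cut_le_one (a c : ι) : cut u B R a c ≤ 1 := max_le zero_le_one (min_le_left _ _)

omit [Fintype ι] in
theorem cut_eq_one (hR : 0 < R) {a c : ι} (h : dst u a c ≤ rad B * R) : cut u B R a c = 1 := by
  rw [cut, min_eq_left, max_eq_right zero_le_one]
  have : dst u a c / R ≤ rad B := (div_le_iff₀ hR).2 h
  linarith

omit [Fintype ι] in
theorem dst_le_of_cut (hR : 0 < R) {a c : ι} (h : cut u B R a c ≠ 0) :
    dst u a c ≤ (rad B + 1) * R := by
  by_contra h'
  push Not at h'
  refine h ?_
  have : rad B + 1 < dst u a c / R := (lt_div_iff₀ hR).2 h'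
  rw [cut, min_eq_right (by linarith), max_eq_left (by linarith)]

theorem ew_pos (a c : ι) : 0 < ew u q R a c := Real.exp_pos _

theorem ew_rpow (hq : q ≠ 0) (a c : ι) :
    ew u q R a c ^ q = Real.exp (-(dst u a c / R)) / Z u R a := by
  rw [ew, ← Real.exp_mul, ← exp_logZ (u := u) (R := R) a, ← Real.exp_sub]
  congr 1
  field_simp
  ring

theorem sum_ew_rpow (hq : q ≠ 0) (a : ι) : ∑ c, ew u q R a c ^ q = 1 := by
  simp only [ew_rpow hq]
  rw [← sum_div]
  exact div_self (Z_pos a).ne'

theorem ew_rpow_le (hq : q ≠ 0) (hR : 0 < R) (a c : ι) : ew u q R a c ^ q ≤ 1 / Z u R a := by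
  rw [ew_rpow hq]
  refine div_le_div_of_nonneg_right (Real.exp_le_one_iff.2 ?_) (Z_pos a).le
  have := dst_nonneg u a c
  rw [neg_nonpos]
  positivity

theorem kap_nonneg (a c : ι) : 0 ≤ kap u B q R a c := mul_nonneg (cut_nonneg a c) (ew_pos a c).le

theorem kap_le (a c : ι) : kap u B q R a c ≤ ew u q R a c :=
  mul_le_of_le_one_left (ew_pos a c).le (cut_le_one a c)

theorem dst_le_of_kap (hR : 0 < R) {a c : ι} (h : kap u B q R a c ≠ 0) :
    dst u a c ≤ (rad B + 1) * R :=
  dst_le_of_cut hR fun h' => h (by rw [kap, h', zero_mul])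

theorem abs_kap_sub (hR : 0 < R) (hq : 1 ≤ q) (a b c : ι) :
    |kap u B q R a c - kap u B q R b c|
      ≤ 3 * dst u a b / R * (ew u q R a c + ew u q R b c) := by
  have hd := abs_dst_sub u a b c
  have hcut : |cut u B R a c - cut u B R b c| ≤ dst u a b / R := by
    refine (clip_lip _ _).trans ?_
    rw [show rad B + 1 - dst u a c / R - (rad B + 1 - dst u b c / R)
      = -((dst u a c - dst u b c) / R) by ring, abs_neg, abs_div, abs_of_pos hR]
    exact div_le_div_of_nonneg_right hd hR.le
  have he : |ew u q R a c - ew u q R b c|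
      ≤ 2 * dst u a b / R * (ew u q R a c + ew u q R b c) := by
    refine (exp_neg_lip _ _).trans (mul_le_mul_of_nonneg_right ?_
      (add_nonneg (Real.exp_pos _).le (Real.exp_pos _).le))
    rw [← sub_div, abs_div, abs_of_pos (by linarith : 0 < q)]
    refine (div_le_self (abs_nonneg _) hq).trans ?_
    rw [show dst u a c / R + logZ u R a - (dst u b c / R + logZ u R b)
      = (dst u a c - dst u b c) / R + (logZ u R a - logZ u R b) by ring]
    refine (abs_add_le _ _).trans ?_
    rw [abs_div, abs_of_pos hR, show 2 * dst u a b / R = dst u a b / R + dst u a b / R by ring]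
    exact add_le_add (div_le_div_of_nonneg_right hd hR.le) (abs_logZ_sub hR a b)
  have e : kap u B q R a c - kap u B q R b c
      = (cut u B R a c - cut u B R b c) * ew u q R a c
        + cut u B R b c * (ew u q R a c - ew u q R b c) := by
    simp only [kap]; ring
  have h0 : 0 ≤ dst u a b / R := div_nonneg (dst_nonneg u a b) hR.le
  rw [e]
  refine (abs_add_le _ _).trans ?_
  rw [abs_mul, abs_mul, abs_of_pos (ew_pos a c), abs_of_nonneg (cut_nonneg b c)]
  have h1 := mul_le_mul_of_nonneg_right hcut (ew_pos (u := u) (q := q) (R := R) a c).le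
  have h2 := (mul_le_of_le_one_left (abs_nonneg _) (cut_le_one (u := u) (B := B) (R := R) b c)).trans he
  have h3 := mul_nonneg h0 (ew_pos (u := u) (q := q) (R := R) b c).le
  rw [show 3 * dst u a b / R = dst u a b / R + 2 * dst u a b / R by ring, add_mul]
  linarith

/-- where the growth is small the truncated kernel keeps half of the mass -/
theorem half_le_sum_kap (hR : 0 < R) (hq : q ≠ 0) {a : ι}
    (hg : growth u R a ≤ B + 1) : 1 / 2 ≤ ∑ c, kap u B q R a c ^ q := by
  classical
  set far := {c ∈ (univ : Finset ι) | rad B * R < dst u a c} with hfar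
  have htail : ∑ c ∈ far, Real.exp (-(dst u a c / R)) ≤ Z u R a / 2 := by
    have h1 : ∑ c ∈ far, Real.exp (-(dst u a c / R))
        ≤ Real.exp (-(rad B / 2)) * Z u (2 * R) a := by
      rw [Z, mul_sum]
      refine (sum_le_sum fun c hc => ?_).trans
        (sum_le_sum_of_subset_of_nonneg (filter_subset _ _) fun c _ _ =>
          mul_nonneg (Real.exp_pos _).le (Real.exp_pos _).le)
      rw [← Real.exp_add, Real.exp_le_exp]
      have hh : rad B ≤ dst u a c / R := (le_div_iff₀ hR).2 (mem_filter.1 hc).2.le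
      rw [show dst u a c / (2 * R) = dst u a c / R / 2 by ring]
      linarith
    have h2 : Z u (2 * R) a ≤ Real.exp (B + 1) * Z u R a := by
      rw [← exp_logZ (u := u) (R := 2 * R), ← exp_logZ (u := u) (R := R), ← Real.exp_add,
        Real.exp_le_exp]
      simp only [growth] at hg
      linarith
    refine h1.trans ((mul_le_mul_of_nonneg_left h2 (Real.exp_pos _).le).trans ?_)
    rw [← mul_assoc, ← Real.exp_add, show -(rad B / 2) + (B + 1) = -1 by rw [rad]; ring,
      Real.exp_neg, inv_mul_eq_div]
    refine div_le_div_of_nonneg_left (Z_pos a).le two_pos ?_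
    linarith [Real.add_one_le_exp 1]
  have hsplit := sum_filter_add_sum_filter_not univ (fun c => rad B * R < dst u a c)
    (fun c => Real.exp (-(dst u a c / R)))
  rw [← hfar] at hsplit
  have hZ : Z u R a = ∑ c, Real.exp (-(dst u a c / R)) := rfl
  calc (1 : ℝ) / 2 = (Z u R a / 2) / Z u R a := by field_simp [(Z_pos (u := u) (R := R) a).ne']
    _ ≤ (∑ c ∈ {c ∈ (univ : Finset ι) | ¬ rad B * R < dst u a c},
          Real.exp (-(dst u a c / R))) / Z u R a := by
        refine div_le_div_of_nonneg_right ?_ (Z_pos a).le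
        linarith
    _ = ∑ c ∈ {c ∈ (univ : Finset ι) | ¬ rad B * R < dst u a c}, kap u B q R a c ^ q := by
        rw [sum_div]
        refine sum_congr rfl fun c hc => ?_
        rw [kap, cut_eq_one hR (not_lt.1 (mem_filter.1 hc).2), one_mul, ew_rpow hq]
    _ ≤ _ := sum_le_sum_of_subset_of_nonneg (filter_subset _ _)
        fun c _ _ => Real.rpow_nonneg (kap_nonneg a c) _

end Vale.Agent.P249.Scales
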