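import Vale.Agent.P249.Scales.Kernel

/-!
# P249: mollifying a coarsely Lipschitz map over `K` scales

The weights of the scales are the increments of a capped running sum of the good-scale indicators,
so the total variation at scale `η` costs `d / (K η)` and moves points by `O(η)`.
-/

open Finset

namespace Vale.Agent.P249.Scales

variable {ι : Type*} [Fintype ι] {V : Type*} [NormedAddCommGroup V] (u : ι → V)

/-- the running sum of the good-scale indicators from scale `t` on -/
noncomputable def runSum (B η₀ : ℝ) (K t : ℕ) (a : ι) : ℝ :=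
  ∑ j ∈ Ico t K, 2 / (K : ℝ) * beta u B (η₀ * 2 ^ j) a

/-- the weight of scale `t` -/
noncomputable def wt (B η₀ : ℝ) (K t : ℕ) (a : ι) : ℝ :=
  min 1 (runSum u B η₀ K t a) - min 1 (runSum u B η₀ K (t + 1) a)

/-- the weight of the point `c` at scale `t` -/
noncomputable def pw (B η₀ : ℝ) (K t : ℕ) (a c : ι) : ℝ :=
  wt u B η₀ K t a * (kap u B 1 (η₀ * 2 ^ t) a c / ∑ c', kap u B 1 (η₀ * 2 ^ t) a c')

variable {u} {B η₀ : ℝ} {K : ℕ}

theorem runSum_step {t : ℕ} (ht : t < K) (a : ι) :
    runSum u B η₀ K t a = 2 / (K : ℝ) * beta u B (η₀ * 2 ^ t) a + runSum u B η₀ K (t + 1) a :=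
  sum_eq_sum_Ico_succ_bot ht _

theorem wt_bounds {t : ℕ} (ht : t < K) (a : ι) :
    0 ≤ wt u B η₀ K t a ∧ wt u B η₀ K t a ≤ 2 / (K : ℝ) * beta u B (η₀ * 2 ^ t) a := by
  have h0 : 0 ≤ 2 / (K : ℝ) * beta u B (η₀ * 2 ^ t) a := mul_nonneg (by positivity) (beta_nonneg a)
  rw [wt, runSum_step ht]
  constructor
  · exact sub_nonneg.2 (min_le_min le_rfl (by linarith))
  · rcases le_total (runSum u B η₀ K (t + 1) a) 1 with h | h
    · rw [min_eq_right h]
      linarith [min_le_right 1 (2 / (K : ℝ) * beta u B (η₀ * 2 ^ t) a + runSum u B η₀ K (t + 1) a)]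
    · rw [min_eq_left h]
      linarith [min_le_left 1 (2 / (K : ℝ) * beta u B (η₀ * 2 ^ t) a + runSum u B η₀ K (t + 1) a)]

theorem abs_runSum_sub (hη : 0 < η₀) (t : ℕ) (a b : ι) :
    |runSum u B η₀ K t a - runSum u B η₀ K t b| ≤ 8 * dst u a b / ((K : ℝ) * (η₀ * 2 ^ t)) := by
  simp only [runSum, ← sum_sub_distrib, ← mul_sub]
  refine (abs_sum_le_sum_abs _ _).trans ?_
  have h1 : ∀ j, |2 / (K : ℝ) * (beta u B (η₀ * 2 ^ j) a - beta u B (η₀ * 2 ^ j) b)|
      ≤ 4 * dst u a b / ((K : ℝ) * η₀) * (1 / 2) ^ j := by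
    intro j
    rw [abs_mul, abs_of_nonneg (by positivity : (0 : ℝ) ≤ 2 / (K : ℝ))]
    refine (mul_le_mul_of_nonneg_left (abs_beta_sub (by positivity) a b) (by positivity)).trans_eq ?_
    rw [one_div_pow]
    field_simp
    ring
  refine (sum_le_sum fun j _ => h1 j).trans ?_
  rw [← mul_sum, sum_Ico_eq_sum_range]
  simp only [pow_add, ← mul_sum]
  have hd := dst_nonneg u a b
  refine (mul_le_mul_of_nonneg_left (mul_le_mul_of_nonneg_left (sum_geometric_two_le _)
    (by positivity)) (by positivity)).trans_eq ?_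
  rw [one_div_pow]
  field_simp
  ring

theorem abs_wt_sub (hη : 0 < η₀) (t : ℕ) (a b : ι) :
    |wt u B η₀ K t a - wt u B η₀ K t b| ≤ 16 * dst u a b / ((K : ℝ) * (η₀ * 2 ^ t)) := by
  have hmin : ∀ x y : ℝ, |min 1 x - min 1 y| ≤ |x - y| := fun x y =>
    (abs_min_sub_min_le_max _ _ _ _).trans (max_le (by simp) le_rfl)
  simp only [wt]
  rw [sub_sub_sub_comm]
  refine (abs_sub _ _).trans ?_
  rw [show 16 * dst u a b / ((K : ℝ) * (η₀ * 2 ^ t))
    = 8 * dst u a b / ((K : ℝ) * (η₀ * 2 ^ t)) + 8 * dst u a b / ((K : ℝ) * (η₀ * 2 ^ t)) by ring]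
  refine add_le_add ((hmin _ _).trans (abs_runSum_sub hη t a b))
    (((hmin _ _).trans (abs_runSum_sub hη (t + 1) a b)).trans ?_)
  rcases Nat.eq_zero_or_pos K with rfl | hK
  · simp
  refine div_le_div_of_nonneg_left (by linarith [dst_nonneg u a b]) (by positivity) ?_
  gcongr
  · norm_num
  · omega

theorem pw_nonneg {t : ℕ} (ht : t < K) (a c : ι) : 0 ≤ pw u B η₀ K t a c :=
  mul_nonneg (wt_bounds ht a).1
    (div_nonneg (kap_nonneg a c) (sum_nonneg fun c' _ => kap_nonneg a c'))

theorem half_le_of_wt_ne (hη : 0 < η₀) {t : ℕ} (ht : t < K) {a : ι}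
    (h : wt u B η₀ K t a ≠ 0) : 1 / 2 ≤ ∑ c, kap u B 1 (η₀ * 2 ^ t) a c := by
  have hb : 0 < beta u B (η₀ * 2 ^ t) a := by
    rcases (beta_nonneg (u := u) (B := B) (R := η₀ * 2 ^ t) a).eq_or_lt with h0 | h0
    · have := wt_bounds (u := u) (B := B) (η₀ := η₀) ht a
      rw [← h0, mul_zero] at this
      exact absurd (le_antisymm this.2 this.1) h
    · exact h0
  simpa using half_le_sum_kap (B := B) (q := 1) (show 0 < η₀ * 2 ^ t by positivity) one_ne_zero
    (growth_of_beta_pos hb)

theorem sum_pw (hη : 0 < η₀) {t : ℕ} (ht : t < K) (a : ι) :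
    ∑ c, pw u B η₀ K t a c = wt u B η₀ K t a := by
  simp only [pw, ← mul_sum, ← sum_div]
  by_cases h : wt u B η₀ K t a = 0
  · rw [h, zero_mul]
  · rw [div_self (ne_of_gt (by linarith [half_le_of_wt_ne hη ht h])), mul_one]

theorem sum_abs_pw_sub (hη : 0 < η₀) {t : ℕ} (ht : t < K) (a b : ι) :
    ∑ c, |pw u B η₀ K t a c - pw u B η₀ K t b c| ≤ 64 * dst u a b / ((K : ℝ) * (η₀ * 2 ^ t)) ∧
    ∑ c, |pw u B η₀ K t a c - pw u B η₀ K t b c| ≤ 4 / (K : ℝ) := by
  have hK : (0 : ℝ) < K := by exact_mod_cast (Nat.zero_le t).trans_lt ht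
  have hd := dst_nonneg u a b
  set D := dst u a b / ((K : ℝ) * (η₀ * 2 ^ t)) with hD
  have hD0 : 0 ≤ D := by positivity
  constructor
  · rw [mul_div_assoc, ← hD]
    have hwab : |wt u B η₀ K t a - wt u B η₀ K t b| ≤ 16 * D := by
      rw [hD, ← mul_div_assoc]; exact abs_wt_sub hη t a b
    by_cases ha : wt u B η₀ K t a = 0
    · simp only [show ∀ c, pw u B η₀ K t a c = 0 from fun c => by rw [pw, ha, zero_mul], zero_sub,
        abs_neg, abs_of_nonneg (pw_nonneg ht b _)]
      rw [sum_pw hη ht]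
      rw [ha, zero_sub, abs_neg] at hwab
      linarith [le_abs_self (wt u B η₀ K t b)]
    by_cases hb : wt u B η₀ K t b = 0
    · simp only [show ∀ c, pw u B η₀ K t b c = 0 from fun c => by rw [pw, hb, zero_mul], sub_zero,
        abs_of_nonneg (pw_nonneg ht a _)]
      rw [sum_pw hη ht]
      rw [hb, sub_zero] at hwab
      linarith [le_abs_self (wt u B η₀ K t a)]
    set k : ι → ι → ℝ := fun a c => kap u B 1 (η₀ * 2 ^ t) a c with hk
    have hk0 : ∀ a c, 0 ≤ k a c := fun a c => kap_nonneg a c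
    set Na := ∑ c, k a c with hNa
    set Nb := ∑ c, k b c with hNb
    have hNa0 : 1 / 2 ≤ Na := half_le_of_wt_ne hη ht ha
    have hNb0 : 1 / 2 ≤ Nb := half_le_of_wt_ne hη ht hb
    have hwb := wt_bounds (u := u) (B := B) (η₀ := η₀) ht b
    have hwb2 : wt u B η₀ K t b ≤ 2 / (K : ℝ) :=
      hwb.2.trans (mul_le_of_le_one_right (by positivity) (beta_le_one b))
    set Δ := ∑ c, |k a c - k b c| with hΔ
    have hΔ6 : Δ ≤ 6 * dst u a b / (η₀ * 2 ^ t) := by
      refine (sum_le_sum fun c _ => abs_kap_sub (by positivity) le_rfl a b c).trans_eq ?_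
      have e : ∀ a, ∑ c, ew u 1 (η₀ * 2 ^ t) a c = 1 := fun a => by
        simpa using sum_ew_rpow (u := u) (R := η₀ * 2 ^ t) one_ne_zero a
      rw [← mul_sum, sum_add_distrib, e, e]
      ring
    have hΔN : |Nb - Na| ≤ Δ := by
      rw [hNb, hNa, ← sum_sub_distrib]
      exact (abs_sum_le_sum_abs _ _).trans_eq (sum_congr rfl fun c _ => abs_sub_comm _ _)
    have hterm : ∀ c, |pw u B η₀ K t a c - pw u B η₀ K t b c|
        ≤ |wt u B η₀ K t a - wt u B η₀ K t b| * (k a c / Na)
          + wt u B η₀ K t b * (|k a c - k b c| / Na + k b c / Nb * (Δ / Na)) := by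
      intro c
      have e : pw u B η₀ K t a c - pw u B η₀ K t b c
          = (wt u B η₀ K t a - wt u B η₀ K t b) * (k a c / Na)
            + wt u B η₀ K t b * ((k a c - k b c) / Na + k b c / Nb * ((Nb - Na) / Na)) := by
        simp only [pw, hk, hNa, hNb]
        have := (by linarith : Na ≠ 0)
        have := (by linarith : Nb ≠ 0)
        simp only [hk, hNa, hNb] at *
        field_simp
        ring
      rw [e]
      refine (abs_add_le _ _).trans (add_le_add ?_ ?_)
      · rw [abs_mul, abs_of_nonneg (div_nonneg (hk0 a c) (by linarith))]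
      · rw [abs_mul, abs_of_nonneg hwb.1]
        refine mul_le_mul_of_nonneg_left ((abs_add_le _ _).trans (add_le_add ?_ ?_)) hwb.1
        · rw [abs_div, abs_of_pos (by linarith : 0 < Na)]
        · rw [abs_mul, abs_of_nonneg (div_nonneg (hk0 b c) (by linarith : (0 : ℝ) ≤ Nb)), abs_div,
            abs_of_pos (by linarith : 0 < Na)]
          exact mul_le_mul_of_nonneg_left (div_le_div_of_nonneg_right hΔN (by linarith))
            (div_nonneg (hk0 b c) (by linarith))
    refine (sum_le_sum fun c _ => hterm c).trans ?_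
    rw [sum_add_distrib, ← mul_sum, ← mul_sum, sum_add_distrib, ← sum_div, ← sum_div, ← sum_mul,
      ← sum_div, ← hNa, ← hNb, ← hΔ, div_self (by linarith : Na ≠ 0),
      div_self (by linarith : Nb ≠ 0), mul_one, one_mul]
    have h2 : Δ / Na + Δ / Na ≤ 4 * Δ := by
      have hΔ0 : 0 ≤ Δ := sum_nonneg fun c _ => abs_nonneg _
      have : Δ / Na ≤ 2 * Δ := by rw [div_le_iff₀ (by linarith)]; nlinarith
      linarith
    have h3 : wt u B η₀ K t b * (Δ / Na + Δ / Na) ≤ 48 * D := by
      refine (mul_le_mul hwb2 h2 (by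
        have : 0 ≤ Δ := sum_nonneg fun c _ => abs_nonneg _
        positivity) (by positivity)).trans ?_
      refine (mul_le_mul_of_nonneg_left (mul_le_mul_of_nonneg_left hΔ6 (by norm_num))
        (by positivity)).trans_eq ?_
      rw [hD]
      field_simp
      ring
    linarith
  · refine (sum_le_sum fun c _ => abs_sub _ _).trans ?_
    simp only [sum_add_distrib, abs_of_nonneg (pw_nonneg ht _ _)]
    rw [sum_pw hη ht, sum_pw hη ht]
    have h : ∀ a, wt u B η₀ K t a ≤ 2 / (K : ℝ) := fun a =>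
      (wt_bounds ht a).2.trans (mul_le_of_le_one_right (by positivity) (beta_le_one a))
    linarith [h a, h b, show (4 : ℝ) / K = 2 / K + 2 / K by ring]

theorem dst_le_of_pw_ne (hη : 0 < η₀) {t : ℕ} {a c : ι} (h : pw u B η₀ K t a c ≠ 0) :
    dst u a c ≤ (rad B + 1) * (η₀ * 2 ^ t) :=
  dst_le_of_kap (q := 1) (by positivity) fun h' => h (by rw [pw, h', zero_div, mul_zero])

/-- a map that is Lipschitz down to `η₀` becomes Lipschitz at all scales -/
theorem mollify {W : Type*} [NormedAddCommGroup W] [NormedSpace ℝ W] {q A Q : ℝ} (hq : 0 < q)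
    (hB : 4 * q ≤ B) (hK : 0 < K) (hη : 0 < η₀) (hn : Real.log (Fintype.card ι) ≤ q * K)
    (hA : 0 ≤ A) (Ψ : ι → W) (h1 : ∀ a b, ‖Ψ a - Ψ b‖ ≤ A * (dst u a b + η₀))
    (h2 : ∀ a b, ‖Ψ a - Ψ b‖ ≤ Q) :
    ∃ F : ι → W, ∀ a b, ‖F a - F b‖ ≤ 64 * (rad B + 3) * A * dst u a b ∧ ‖F a - F b‖ ≤ Q ∧
      ‖F a - Ψ a‖ ≤ A * (rad B + 2) * (η₀ * 2 ^ K) := by
  have hKr : (0 : ℝ) < K := Nat.cast_pos.2 hK
  have hL : 0 ≤ rad B := by rw [rad]; linarith
  have hone : ∀ a, ∑ x ∈ range K, ∑ c, pw u B η₀ K x a c = 1 := by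
    intro a
    rw [sum_congr rfl fun t ht => sum_pw hη (mem_range.1 ht) a]
    simp only [wt]
    rw [sum_range_sub' (fun t => min 1 (runSum u B η₀ K t a))]
    have h0 : runSum u B η₀ K K a = 0 := by simp [runSum]
    rw [h0, min_eq_right zero_le_one, sub_zero, min_eq_left]
    have hgood := card_good (u := u) hη a K hq hB hn
    simp only [runSum, ← mul_sum, ← range_eq_Ico]
    have hle : (({t ∈ range K | growth u (η₀ * 2 ^ t) a ≤ B} : Finset ℕ).card : ℝ)
        ≤ ∑ t ∈ range K, beta u B (η₀ * 2 ^ t) a := by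
      refine le_trans (le_of_eq ?_) (sum_le_sum_of_subset_of_nonneg
        (filter_subset (fun t => growth u (η₀ * 2 ^ t) a ≤ B) (range K))
        fun t _ _ => beta_nonneg a)
      rw [sum_congr rfl fun t ht => beta_eq_one (mem_filter.1 ht).2]
      simp
    rw [div_mul_eq_mul_div, le_div_iff₀ hKr]
    linarith
  let F : ι → W := fun a => ∑ x ∈ range K, ∑ c, pw u B η₀ K x a c • Ψ c
  have hconst : ∀ a z, F a - z = ∑ x ∈ range K, ∑ c, pw u B η₀ K x a c • (Ψ c - z) := by
    intro a z
    simp only [smul_sub, sum_sub_distrib, ← sum_smul, hone a, one_smul, F]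
  have hnorm : ∀ a z r, (∀ x ∈ range K, ∀ c, pw u B η₀ K x a c ≠ 0 → ‖Ψ c - z‖ ≤ r) →
      ‖F a - z‖ ≤ r := by
    intro a z r h
    rw [hconst]
    calc _ ≤ ∑ x ∈ range K, ∑ c, pw u B η₀ K x a c * r := by
          refine (norm_sum_le _ _).trans (sum_le_sum fun x hx => (norm_sum_le _ _).trans
            (sum_le_sum fun c _ => ?_))
          rw [norm_smul, Real.norm_eq_abs, abs_of_nonneg (pw_nonneg (mem_range.1 hx) a c)]
          by_cases h0 : pw u B η₀ K x a c = 0
          · rw [h0, zero_mul, zero_mul]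
          · exact mul_le_mul_of_nonneg_left (h x hx c h0) (pw_nonneg (mem_range.1 hx) a c)
      _ = r := by simp only [← sum_mul, hone a, one_mul]
  refine ⟨F, fun a b => ⟨?_, ?_, ?_⟩⟩
  · have e : F a - F b
        = ∑ x ∈ range K, ∑ c, (pw u B η₀ K x a c - pw u B η₀ K x b c) • (Ψ c - Ψ a) := by
      simp only [sub_smul, sum_sub_distrib, ← hconst]
      abel
    rw [e]
    refine (norm_sum_le _ _).trans ?_
    have hd := dst_nonneg u a b
    calc _ ≤ ∑ _x ∈ range K, 64 * (rad B + 3) * A * dst u a b / K := by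
          refine sum_le_sum fun x hx => (norm_sum_le _ _).trans ?_
          have hx' := mem_range.1 hx
          set η := η₀ * 2 ^ x with hηx
          have hη' : 0 < η := by positivity
          have hηle : η₀ ≤ η := le_mul_of_one_le_right hη.le (one_le_pow₀ (by norm_num))
          obtain ⟨s1, s2⟩ := sum_abs_pw_sub (u := u) (B := B) hη hx' a b
          calc _ ≤ ∑ c, |pw u B η₀ K x a c - pw u B η₀ K x b c|
                * (A * ((rad B + 1) * η + dst u a b + η₀)) := by
                refine sum_le_sum fun c _ => ?_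
                rw [norm_smul, Real.norm_eq_abs]
                by_cases h0 : pw u B η₀ K x a c - pw u B η₀ K x b c = 0
                · simp [h0]
                refine mul_le_mul_of_nonneg_left ((h1 c a).trans
                  (mul_le_mul_of_nonneg_left ?_ hA)) (abs_nonneg _)
                rw [dst_comm u c a]
                by_cases ha : pw u B η₀ K x a c = 0
                · have hb : pw u B η₀ K x b c ≠ 0 := fun hb => h0 (by rw [ha, hb, sub_zero])
                  linarith [dst_le_of_pw_ne hη hb, dst_tri u a b c]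
                · linarith [dst_le_of_pw_ne hη ha]
            _ = (∑ c, |pw u B η₀ K x a c - pw u B η₀ K x b c|)
                * (A * ((rad B + 1) * η + dst u a b + η₀)) := (sum_mul _ _ _).symm
            _ ≤ _ := by
                have h0 : 0 ≤ A * ((rad B + 1) * η + dst u a b + η₀) := by positivity
                rcases le_total (dst u a b) η with hdη | hdη
                · refine (mul_le_mul s1 (mul_le_mul_of_nonneg_left
                    (show (rad B + 1) * η + dst u a b + η₀ ≤ (rad B + 3) * η by linarith) hA) h0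
                    (by positivity)).trans_eq ?_
                  rw [hηx]
                  field_simp
                · refine (mul_le_mul s2 (mul_le_mul_of_nonneg_left
                    (show (rad B + 1) * η + dst u a b + η₀ ≤ (rad B + 3) * dst u a b by
                      nlinarith) hA) h0 (by positivity)).trans ?_
                  rw [div_mul_eq_mul_div]
                  refine div_le_div_of_nonneg_right ?_ hKr.le
                  nlinarith [mul_nonneg (mul_nonneg hA hd) (by linarith : (0 : ℝ) ≤ rad B + 3)]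
      _ = _ := by
          rw [sum_const, card_range, nsmul_eq_mul]
          field_simp
  · have h3 : ∀ c, ‖Ψ c - F b‖ ≤ Q := fun c => by
      rw [norm_sub_rev]; exact hnorm b (Ψ c) Q fun _ _ c' _ => h2 c' c
    exact hnorm a (F b) Q fun _ _ c _ => h3 c
  · refine hnorm a (Ψ a) _ fun x hx c h0 => ?_
    have hx' : η₀ * 2 ^ x ≤ η₀ * 2 ^ K := mul_le_mul_of_nonneg_left
      (pow_le_pow_right₀ (by norm_num) (mem_range.1 hx).le) hη.le
    have hηle : η₀ ≤ η₀ * 2 ^ K := le_mul_of_one_le_right hη.le (one_le_pow₀ (by norm_num))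
    refine (h1 c a).trans ?_
    rw [mul_assoc, dst_comm u c a]
    refine mul_le_mul_of_nonneg_left ?_ hA
    have := (dst_le_of_pw_ne hη h0).trans
      (mul_le_mul_of_nonneg_left hx' (by linarith : (0 : ℝ) ≤ rad B + 1))
    linarith

end Vale.Agent.P249.Scales
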