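import Vale.Agent.P249.Sampling

/-!
P249, scales: sampling with relative error one half and additive error `θ`.
-/

namespace Vale.Agent.P249.Scales

open MeasureTheory Finset

/-- Finitely many functions with values in `[0, M]` on a probability space: few weighted points
reproduce every mean up to a factor two and an additive `θ`. -/
theorem exists_sample_add {Ω : Type*} [MeasurableSpace Ω] (μ : Measure Ω) [IsProbabilityMeasure μ]
    {κ : Type*} [Fintype κ] (f : κ → Ω → ℝ) (hfm : ∀ k, Measurable (f k))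
    {M θ : ℝ} (hθ : 0 < θ) (hf0 : ∀ k ω, 0 ≤ f k ω) (hfM : ∀ k ω, f k ω ≤ M) (hM : 0 ≤ M) :
    ∃ (N : ℕ) (ω : Fin N → Ω) (w : Fin N → ℝ),
      (N : ℝ) ≤ 16 * (1 + M / θ) * Real.log (2 * (Fintype.card κ + 1 : ℕ) + 1) + 1 ∧
      (∀ l, 0 ≤ w l) ∧ ∑ l, w l ≤ 2 ∧
      ∀ k, (∫ x, f k x ∂μ) / 2 - θ ≤ ∑ l, w l * f k (ω l) ∧
        ∑ l, w l * f k (ω l) ≤ 2 * (∫ x, f k x ∂μ) + θ := by
  classical
  set T : ℝ := 1 + M / θ with hT
  have hT1 : 1 ≤ T := le_add_of_nonneg_right (div_nonneg hM hθ.le)
  have hT0 : 0 < T := one_pos.trans_le hT1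
  have hi : ∀ k, Integrable (f k) μ := fun k =>
    Integrable.of_bound (hfm k).aestronglyMeasurable M
      (Filter.Eventually.of_forall fun ω => by
        rw [Real.norm_eq_abs, abs_of_nonneg (hf0 k ω)]; exact hfM k ω)
  set E : κ → ℝ := fun k => ∫ x, f k x ∂μ with hE
  have hE0 : ∀ k, 0 ≤ E k := fun k => integral_nonneg (hf0 k)
  have hEθ : ∀ k, 0 < E k + θ := fun k => by linarith [hE0 k]
  set φ : Option κ → Ω → ℝ := fun o x => o.elim 1 fun k => (f k x + θ) / (E k + θ) with hφ
  set A : ℝ := (2 * (Fintype.card κ + 1 : ℕ) + 1 : ℝ) with hA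
  have hA1 : 1 < A := by rw [hA]; push_cast; linarith [(Fintype.card κ).cast_nonneg (α := ℝ)]
  set N : ℕ := ⌈16 * T * Real.log A⌉₊ with hN
  have hm : 2 * (Fintype.card (Option κ) : ℝ) <
      Real.exp ((1 / 2 : ℝ) ^ 2 / (4 * (T * 1)) * N) := by
    have h1 : Real.log A ≤ (1 / 2 : ℝ) ^ 2 / (4 * (T * 1)) * N := by
      rw [div_mul_eq_mul_div, le_div_iff₀ (by positivity)]
      have := Nat.le_ceil (16 * T * Real.log A)
      rw [← hN] at this
      linarith
    have h2 : A ≤ Real.exp ((1 / 2 : ℝ) ^ 2 / (4 * (T * 1)) * N) := by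
      rw [← Real.exp_log (one_pos.trans hA1)]
      exact Real.exp_le_exp.2 h1
    rw [Fintype.card_option]
    linarith
  obtain ⟨ω, w, hw0, hw⟩ := exists_sample μ (fun _ => 1) φ T 1 (1 / 2) hT0 (by norm_num)
    (by norm_num) measurable_const (fun _ => zero_le_one) (integrable_const _) (by simp) (by simp)
    (fun o => by
      cases o with
      | none => exact measurable_const
      | some k => exact ((hfm k).add_const θ).div_const _)
    (fun o x => by
      cases o with
      | none => exact zero_le_one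
      | some k => exact div_nonneg (by linarith [hf0 k x]) (hEθ k).le)
    (fun o x => by
      cases o with
      | none => simpa [hφ] using hT1
      | some k =>
        simp only [hφ, Option.elim_some, mul_one]
        rw [div_le_iff₀ (hEθ k)]
        have h1 : M + θ = T * θ := by rw [hT]; field_simp; ring
        nlinarith [hfM k x, hE0 k, hT0])
    (fun o => by
      cases o with
      | none => simp [hφ]
      | some k =>
        simp only [hφ, Option.elim_some]
        rw [integral_div, integral_add (hi k) (integrable_const _), integral_const]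
        simp only [probReal_univ, one_smul]
        exact div_self (hEθ k).ne')
    N hm
  have h0 := hw none
  simp only [hφ, Option.elim_none, mul_one] at h0
  refine ⟨N, ω, w, (Nat.ceil_lt_add_one (mul_nonneg (by positivity) (Real.log_nonneg hA1.le))).le,
    hw0, by linarith [h0.2], fun k => ?_⟩
  obtain ⟨h1, h2⟩ := hw (some k)
  have e : (∑ l, w l * φ (some k) (ω l)) * (E k + θ) = ∑ l, w l * f k (ω l) + θ * ∑ l, w l := by
    rw [Finset.sum_mul, Finset.mul_sum, ← Finset.sum_add_distrib]
    refine Finset.sum_congr rfl fun l _ => ?_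
    simp only [hφ, Option.elim_some]
    rw [mul_assoc, div_mul_cancel₀ _ (hEθ k).ne']
    ring
  have g1 := mul_le_mul_of_nonneg_right h1 (hEθ k).le
  have g2 := mul_le_mul_of_nonneg_right h2 (hEθ k).le
  rw [e] at g1 g2
  change (E k) / 2 - θ ≤ _ ∧ _ ≤ 2 * E k + θ
  constructor <;> nlinarith [hE0 k, h0.1, h0.2]

end Vale.Agent.P249.Scales
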