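import Vale.Agent.P249.Scales.Collapse
import Vale.Agent.P249.Scales.Sample
import Vale.Agent.P249.Scales.RandomMax
import Vale.Agent.P249.Scales.Features
import Vale.Agent.P249.Scales.Mollify

/-!
# P249: the map of one scale

Lipschitz, of oscillation `O(R)`, constant on the tiny pairs, and faithful at good points.
-/

open Finset MeasureTheory

namespace Vale.Agent.P249.Scales

variable {p : ℝ} [Fact (1 ≤ ENNReal.ofReal p)]

theorem norm_sub_eq {m : ℕ} (f g : Fin m → ℝ) :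
    ‖(WithLp.toLp (ENNReal.ofReal p) f : Lsp p m) - WithLp.toLp (ENNReal.ofReal p) g‖
      = (∑ i, |f i - g i| ^ p) ^ (1 / p) := by
  have hp : p ≠ 0 := by linarith [one_le_p (p := p)]
  rw [one_div]
  calc _ = (‖(WithLp.toLp (ENNReal.ofReal p) f : Lsp p m)
        - WithLp.toLp (ENNReal.ofReal p) g‖ ^ p) ^ p⁻¹ := by
        rw [← Real.rpow_mul (norm_nonneg _), mul_inv_cancel₀ hp, Real.rpow_one]
    _ = _ := by rw [norm_rpow]; simp

/-- padding with zeros -/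
def pad {N N' : ℕ} (f : Fin N → ℝ) (i : Fin N') : ℝ := if h : (i : ℕ) < N then f ⟨i, h⟩ else 0

omit [Fact (1 ≤ ENNReal.ofReal p)] in
theorem sum_pad {N N' : ℕ} (h : N ≤ N') (hp : p ≠ 0) (f g : Fin N → ℝ) :
    ∑ i : Fin N', |pad f i - pad g i| ^ p = ∑ i, |f i - g i| ^ p := by
  rw [← sum_subset (subset_univ (univ.map (Fin.castLEEmb h)))]
  · simp [pad]
  · intro i _ hi
    rw [pad, pad, dif_neg, dif_neg, sub_zero, abs_zero, Real.zero_rpow hp] <;>
    · intro hlt; exact hi (mem_map.2 ⟨⟨i, hlt⟩, mem_univ _, rfl⟩)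

/-- the dimension of one scale, up to a constant -/
noncomputable def dimBound (p : ℝ) (n m K : ℕ) : ℝ :=
  ((8 : ℝ) ^ K) ^ p * ((K : ℝ) + Nat.log 2 m + 1) * (Real.log n + 1) + 1

theorem collapsed {ι : Type} [Fintype ι] [Nonempty ι] {m : ℕ} (v : ι → Lsp p m) {R η : ℝ}
    (B : ℝ) (hR : 0 < R) (hη : 0 < η) (hηR : η ≤ R) :
    ∃ u : ι → Lsp p m, (∀ a b, dst u a b ≤ dst v a b) ∧ (∀ a b, dst v a b ≤ dst u a b + η) ∧
      (∀ a, growth v R a ≤ B - 1 → growth u R a ≤ B) ∧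
      ∀ a b, dst v a b ≤ η / (Fintype.card ι : ℝ) ^ 2 → dst u a b = 0 := by
  have hp1 := one_le_p (p := p)
  have hp0 : 0 < p := by linarith
  set n : ℝ := (Fintype.card ι : ℝ) with hncard
  have hn1 : 1 ≤ n := by rw [hncard]; exact_mod_cast Fintype.card_pos
  -- collapse
  obtain ⟨x', hx1, hx2, hx3⟩ := exists_collapse (fun a i => v a i) hp1
    (show 0 ≤ η / n ^ 2 by positivity)
  set u : ι → Lsp p m := fun a => WithLp.toLp _ (x' a) with hu
  have hdv : ∀ a b, dst v a b = (∑ i, |v a i - v b i| ^ p) ^ (1 / p) := fun a b =>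
    norm_sub_eq (fun i => v a i) (fun i => v b i)
  have hdu : ∀ a b, dst u a b = (∑ i, |x' a i - x' b i| ^ p) ^ (1 / p) := fun a b =>
    norm_sub_eq (x' a) (x' b)
  have hle : ∀ a b, dst u a b ≤ dst v a b := fun a b => by
    rw [hdu, hdv]
    exact Real.rpow_le_rpow (sum_nonneg fun i _ => Real.rpow_nonneg (abs_nonneg _) _)
      (sum_le_sum fun i _ => Real.rpow_le_rpow (abs_nonneg _) (hx1 a b i) hp0.le) (by positivity)
  have hge : ∀ a b, dst v a b ≤ dst u a b + η := fun a b => by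
    rw [hdu, hdv]
    refine (hx2 a b).trans (add_le_add le_rfl (le_of_eq ?_))
    rw [← hncard]
    field_simp
  have hgrowth : ∀ a, growth v R a ≤ B - 1 → growth u R a ≤ B := by
    intro a h
    have h1 : logZ v R a ≤ logZ u R a := Real.log_le_log (Z_pos a) (sum_le_sum fun c _ =>
      Real.exp_le_exp.2 (neg_le_neg (div_le_div_of_nonneg_right (hle a c) hR.le)))
    have h2 : logZ u (2 * R) a ≤ η / (2 * R) + logZ v (2 * R) a := by
      rw [logZ, logZ, ← Real.log_exp (η / (2 * R)),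
        ← Real.log_mul (Real.exp_pos _).ne' (Z_pos a).ne']
      refine Real.log_le_log (Z_pos a) ?_
      rw [Z, Z, mul_sum]
      refine sum_le_sum fun c _ => ?_
      rw [← Real.exp_add, Real.exp_le_exp, ← sub_nonneg,
        show η / (2 * R) + -(dst v a c / (2 * R)) - -(dst u a c / (2 * R))
          = (dst u a c + η - dst v a c) / (2 * R) by ring]
      exact div_nonneg (by linarith [hge a c]) (by linarith)
    have h3 : η / (2 * R) ≤ 1 := by rw [div_le_one (by linarith)]; linarith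
    simp only [growth] at h ⊢
    linarith
  refine ⟨u, hle, hge, hgrowth, fun a b hab => ?_⟩
  have := hx3 a b (by rw [← hdv]; exact hab)
  simp [dst, hu, this]

theorem sampled {ι : Type} [Fintype ι] {m : ℕ} (u : ι → Lsp p m) {B R η : ℝ} (hB0 : 0 ≤ B)
    (hR : 0 < R) (hη : 0 < η) (k N : ℕ)
    (htail : (m : ℝ) * (2 * lvl (top B R) k) ^ p ≤ η ^ p)
    (hN : 16 * (1 + top B R ^ p * Real.exp (rad B + 1) / base B k / η ^ p)
      * Real.log (2 * (Fintype.card (ι × ι) + 1 : ℕ) + 1) + 1 ≤ N) :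
    ∃ Ψ₀ : ι → Lsp p N, ∀ x y,
      ‖Ψ₀ x - Ψ₀ y‖ ^ p ≤ 2 * upC p B * dst u x y ^ p + η ^ p ∧
      ‖Ψ₀ x - Ψ₀ y‖ ^ p ≤ 2 * upC p B * R ^ p + η ^ p ∧
      (growth u R x ≤ B → dst u x y ≤ R →
        3 / 8 * (dst u x y ^ p / lowC p - η ^ p) - η ^ p ≤ ‖Ψ₀ x - Ψ₀ y‖ ^ p) := by
  have hp1 := one_le_p (p := p)
  have hp0 : 0 < p := by linarith
  classical
  let r : Ft ι m k → ℝ := rate u B R k
  let F : ι → Ft ι m k → ℝ := feat u B R k
  let Ω := Ft ι m k → Bool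
  let : MeasurableSpace Ω := ⊤
  have : MeasurableSingletonClass Ω := ⟨fun _ => trivial⟩
  have hr : ∀ e, 0 < r e := rate_pos hB0 hR
  have hr1 : ∀ e, r e ≤ 1 := rate_le_one hB0 hR
  have hpr : ∀ ω : Ω, 0 ≤ prob r ω := prob_nonneg (fun e => (hr e).le) hr1
  let P : PMF Ω := PMF.ofFintype (fun ω => ENNReal.ofReal (prob r ω)) (by
    rw [← ENNReal.ofReal_sum_of_nonneg fun ω _ => hpr ω, sum_prob, ENNReal.ofReal_one])
  obtain ⟨M, hMe⟩ : ∃ M : ℝ, M = top B R ^ p * Real.exp (rad B + 1) / base B k := ⟨_, rfl⟩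
  have hM0 : 0 ≤ M := by
    rw [hMe]
    exact div_nonneg (mul_nonneg (Real.rpow_nonneg (top_pos hB0 hR).le _) (Real.exp_pos _).le)
      (base_pos B k).le
  let f : ι × ι → Ω → ℝ := fun xy ω => |rmax p r F ω xy.1 - rmax p r F ω xy.2| ^ p
  have hint : ∀ xy, ∫ ω, f xy ω ∂P.toMeasure = ∑ ω, prob r ω * f xy ω := fun xy => by
    rw [PMF.integral_eq_sum]
    refine sum_congr rfl fun ω _ => ?_
    simp only [P, PMF.ofFintype_apply, ENNReal.toReal_ofReal (hpr ω), smul_eq_mul]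
  obtain ⟨N₀, ω, w, hN₀, hw, -, hwf⟩ := exists_sample_add P.toMeasure f
    (fun xy => fun _ _ => trivial) (Real.rpow_pos_of_pos hη p)
    (fun xy ω => Real.rpow_nonneg (abs_nonneg _) _)
    (fun xy ω => rmax_sub_rpow_le_max hp0 hr (feat_nonneg hB0 hR) hM0
      (fun x e => hMe ▸ feat_rpow_le_rate hB0 hR x e) ω xy.1 xy.2) hM0
  have hNN : N₀ ≤ N := by
    rw [hMe] at hN₀
    exact_mod_cast hN₀.trans hN
  let Ψ₀ : ι → Lsp p N := fun x => WithLp.toLp _ (pad fun l => w l ^ p⁻¹ * rmax p r F (ω l) x)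
  have hΨ : ∀ x y, ‖Ψ₀ x - Ψ₀ y‖ ^ p = ∑ l, w l * f (x, y) (ω l) := by
    intro x y
    rw [norm_rpow]
    simp only [Ψ₀, PiLp.sub_apply]
    rw [sum_pad hNN hp0.ne']
    refine sum_congr rfl fun l _ => ?_
    rw [← mul_sub, abs_mul, abs_of_nonneg (Real.rpow_nonneg (hw l) _),
      Real.mul_rpow (Real.rpow_nonneg (hw l) _) (abs_nonneg _), ← Real.rpow_mul (hw l),
      inv_mul_cancel₀ hp0.ne', Real.rpow_one]
  have hηp : 0 ≤ η ^ p := Real.rpow_nonneg hη.le _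
  refine ⟨Ψ₀, fun x y => ?_⟩
  have h := hwf (x, y)
  rw [← hΨ, hint] at h
  obtain ⟨hu1, hu2⟩ := feat_moment_le (u := u) (k := k) hB0 hR x y
  have hm := sum_prob_rmax_le (q := p) (F := F) hp0 hr hr1 x y
  refine ⟨?_, ?_, fun hg hd => ?_⟩
  · simp only [f, F, r] at h hm ⊢
    linarith
  · simp only [f, F, r] at h hm ⊢
    linarith
  · have hlow : 0 < lowC p := by rw [lowC]; positivity
    have h1 := dst_rpow_le_feat (u := u) (k := k) hB0 hR hg hd
    have hm' := le_sum_prob_rmax (q := p) (F := F) hp0 hr hr1 (feat_nonneg hB0 hR)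
      (rate_active_le hB0 hR) x y
    have h2 : dst u x y ^ p / lowC p
        ≤ ∑ e : Ft ι m k, |feat u B R k x e - feat u B R k y e| ^ p + η ^ p := by
      rw [div_le_iff₀' hlow]
      exact h1.trans (mul_le_mul_of_nonneg_left (add_le_add le_rfl htail) hlow.le)
    simp only [f, F, r] at h hm' ⊢
    linarith

theorem dim_le {ι : Type} [Fintype ι] [Nonempty ι] {B R η : ℝ} (hB0 : 0 ≤ B) (hR : 0 < R)
    {K k₁ m k N : ℕ} (hK : 1 ≤ K) (hηe : η = R / 8 ^ K)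
    (hk : k = 3 * K + (Nat.log 2 m + 1) + k₁)
    (hN : (16 * (1 + (rad B + 2) ^ p * Real.exp (rad B + 1) * (16 * Real.exp (2 * (rad B + 1)))
      * ((k₁ : ℝ) + 6)) * 6 + 2) * dimBound p (Fintype.card ι) m K ≤ N) :
    16 * (1 + top B R ^ p * Real.exp (rad B + 1) / base B k / η ^ p)
      * Real.log (2 * (Fintype.card (ι × ι) + 1 : ℕ) + 1) + 1 ≤ N := by
  have hp1 := one_le_p (p := p)
  have hp0 : 0 < p := by linarith
  have hrad : 2 ≤ rad B + 2 := by rw [rad]; linarith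
  set n : ℝ := (Fintype.card ι : ℝ) with hncard
  have hn1 : 1 ≤ n := by rw [hncard]; exact_mod_cast Fintype.card_pos
  set E₀ : ℝ := (rad B + 2) ^ p * Real.exp (rad B + 1) * (16 * Real.exp (2 * (rad B + 1))) with hE₀
  have hE₀0 : 0 ≤ E₀ := by
    rw [hE₀]
    have : 0 ≤ rad B + 2 := by linarith
    positivity
  have h8 : ((8 : ℝ) ^ K) ^ p * ((k : ℝ) + 1) ≥ 1 := by
    have : (1 : ℝ) ≤ ((8 : ℝ) ^ K) ^ p := Real.one_le_rpow (one_le_pow₀ (by norm_num)) hp0.le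
    nlinarith [(Nat.cast_nonneg k : (0 : ℝ) ≤ k)]
  have hMη : top B R ^ p * Real.exp (rad B + 1) / base B k / η ^ p = E₀ * (((8 : ℝ) ^ K) ^ p * ((k : ℝ) + 1)) := by
    rw [hE₀, base, hηe, top, Real.mul_rpow (by linarith) hR.le,
      Real.div_rpow hR.le (by positivity)]
    have := (Real.rpow_pos_of_pos hR p).ne'
    field_simp
  have hlog : Real.log (2 * (Fintype.card (ι × ι) + 1 : ℕ) + 1) ≤ 6 * (Real.log n + 1) := by
    rw [Fintype.card_prod]
    push_cast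
    rw [← hncard]
    have hn2 : 1 ≤ n * n := one_le_mul_of_one_le_of_one_le hn1 hn1
    calc Real.log (2 * (n * n + 1) + 1) ≤ Real.log (5 * (n * n)) :=
          Real.log_le_log (by positivity) (by linarith)
      _ = Real.log 5 + 2 * Real.log n := by
          rw [Real.log_mul (by norm_num) (by positivity), Real.log_mul (by positivity)
            (by positivity)]; ring
      _ ≤ _ := by
          linarith [Real.log_le_sub_one_of_pos (show (0 : ℝ) < 5 by norm_num),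
            Real.log_nonneg hn1]
  have hklog : (k : ℝ) + 1 ≤ ((k₁ : ℝ) + 6) * ((K : ℝ) + Nat.log 2 m + 1) := by
    rw [hk]
    push_cast
    have : (1 : ℝ) ≤ K := by exact_mod_cast hK
    nlinarith [(Nat.cast_nonneg k₁ : (0 : ℝ) ≤ k₁),
      (Nat.cast_nonneg (Nat.log 2 m) : (0 : ℝ) ≤ Nat.log 2 m)]
  set X := ((8 : ℝ) ^ K) ^ p * ((K : ℝ) + Nat.log 2 m + 1) with hX
  have hX1 : 1 ≤ X := one_le_mul_of_one_le_of_one_le
    (Real.one_le_rpow (one_le_pow₀ (by norm_num)) hp0.le)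
    (by linarith [(Nat.cast_nonneg (Nat.log 2 m) : (0 : ℝ) ≤ Nat.log 2 m),
      (Nat.cast_nonneg K : (0 : ℝ) ≤ K)])
  have h1 : 1 + top B R ^ p * Real.exp (rad B + 1) / base B k / η ^ p ≤ (1 + E₀ * ((k₁ : ℝ) + 6)) * X := by
    rw [hMη]
    have h2 : ((8 : ℝ) ^ K) ^ p * ((k : ℝ) + 1) ≤ ((k₁ : ℝ) + 6) * X := by
      have := mul_le_mul_of_nonneg_left hklog (Real.rpow_nonneg (pow_nonneg
        (by norm_num : (0 : ℝ) ≤ 8) K) p)
      rw [hX]; linarith
    nlinarith [mul_le_mul_of_nonneg_left h2 hE₀0]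
  have hl0 : 0 ≤ Real.log n + 1 := by linarith [Real.log_nonneg hn1]
  have hA0 : 0 ≤ 16 * (1 + E₀ * ((k₁ : ℝ) + 6)) * X := by positivity
  refine le_trans ?_ hN
  refine le_trans (add_le_add (mul_le_mul (show 16 * (1 + top B R ^ p * Real.exp (rad B + 1)
      / base B k / η ^ p) ≤ 16 * (1 + E₀ * ((k₁ : ℝ) + 6)) * X by linarith) hlog
    (Real.log_nonneg (by
      push_cast
      linarith [(Nat.cast_nonneg (Fintype.card (ι × ι)) : (0 : ℝ) ≤ _)])) hA0) le_rfl) ?_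
  rw [dimBound, ← hncard, ← hX]
  have hc : 0 ≤ 1 + E₀ * ((k₁ : ℝ) + 6) := by positivity
  nlinarith [mul_nonneg (zero_le_one.trans hX1) hl0]

theorem one_scale {B q : ℝ} (hq : 0 < q) (hB : 4 * q ≤ B) :
    ∃ A a C : ℝ, ∃ K₀ : ℕ, 1 ≤ A ∧ 0 < a ∧ 0 ≤ C ∧
      ∀ {ι : Type} [Fintype ι] [Nonempty ι] {m : ℕ} (v : ι → Lsp p m) (R : ℝ) (K : ℕ), 0 < R →
        K₀ ≤ K → Real.log (Fintype.card ι) ≤ q * K →
        ∀ N : ℕ, C * dimBound p (Fintype.card ι) m K ≤ N →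
          ∃ Ψ : ι → Lsp p N, ∀ x y,
            ‖Ψ x - Ψ y‖ ≤ A * dst v x y ∧ ‖Ψ x - Ψ y‖ ≤ A * R ∧
            (dst v x y ≤ R / 8 ^ K / (Fintype.card ι : ℝ) ^ 2 → Ψ x = Ψ y) ∧
            (growth v R x ≤ B - 1 → R / 2 ^ K ≤ dst v x y → dst v x y ≤ R →
              a * dst v x y ≤ ‖Ψ x - Ψ y‖) := by
  have hp1 := one_le_p (p := p)
  have hp0 : 0 < p := by linarith
  have hB0 : 0 ≤ B := by linarith
  have hrad : 2 ≤ rad B + 2 := by rw [rad]; linarith
  have hup : 0 ≤ upC p B := by rw [upC]; have : 0 ≤ 10 * (rad B + 2) := by linarith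
                               positivity
  have hlow : 0 < lowC p := by rw [lowC]; positivity
  obtain ⟨A₁, hA₁, hA₁e⟩ : ∃ A₁ : ℝ, 1 ≤ A₁ ∧ A₁ ^ p = 2 * upC p B + 1 :=
    ⟨(2 * upC p B + 1) ^ p⁻¹, Real.one_le_rpow (by linarith) (inv_nonneg.2 hp0.le), by
      rw [← Real.rpow_mul (by linarith), inv_mul_cancel₀ hp0.ne', Real.rpow_one]⟩
  obtain ⟨a₁, ha₁, ha₁e⟩ : ∃ a₁ : ℝ, 0 < a₁ ∧ a₁ ^ p = 1 / (4 * lowC p) :=
    ⟨(1 / (4 * lowC p)) ^ p⁻¹, Real.rpow_pos_of_pos (by positivity) _, by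
      rw [← Real.rpow_mul (by positivity), inv_mul_cancel₀ hp0.ne', Real.rpow_one]⟩
  obtain ⟨K₁, hK₁⟩ := pow_unbounded_of_one_lt (max (22 * lowC p + 2) (8 * A₁ * (rad B + 2) / a₁))
    (by norm_num : (1 : ℝ) < 2)
  obtain ⟨k₁, hk₁⟩ := pow_unbounded_of_one_lt (2 * (rad B + 2)) (by norm_num : (1 : ℝ) < 2)
  set E₀ : ℝ := (rad B + 2) ^ p * Real.exp (rad B + 1) * (16 * Real.exp (2 * (rad B + 1))) with hE₀
  have hE₀0 : 0 ≤ E₀ := by
    rw [hE₀]
    have : 0 ≤ rad B + 2 := by linarith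
    positivity
  refine ⟨64 * (rad B + 3) * A₁, a₁ / 4, 16 * (1 + E₀ * ((k₁ : ℝ) + 6)) * 6 + 2, max K₁ 1, ?_,
    by positivity, by positivity, ?_⟩
  · nlinarith
  intro ι _ _ m v R K hR hK hn N hN
  simp only [max_le_iff] at hK
  have hKpos : 0 < K := hK.2
  set n : ℝ := (Fintype.card ι : ℝ) with hncard
  have hn1 : 1 ≤ n := by rw [hncard]; exact_mod_cast Fintype.card_pos
  obtain ⟨η, hη, hηe⟩ : ∃ η : ℝ, 0 < η ∧ η = R / 8 ^ K := ⟨_, by positivity, rfl⟩
  have hηR : η ≤ R := by rw [hηe]; exact div_le_self hR.le (one_le_pow₀ (by norm_num))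
  obtain ⟨u, hle, hge, hgrowth, htiny⟩ := collapsed (p := p) v B hR hη hηR
  -- the random maximum
  obtain ⟨k, hk⟩ : ∃ k : ℕ, k = 3 * K + (Nat.log 2 m + 1) + k₁ := ⟨_, rfl⟩
  have htail : (m : ℝ) * (2 * lvl (top B R) k) ^ p ≤ η ^ p := by
    have hl : 0 ≤ 2 * lvl (top B R) k := by linarith [lvl_pos (top_pos hB0 hR) k]
    have hm : (m : ℝ) ≤ (m : ℝ) ^ p := by
      rcases Nat.eq_zero_or_pos m with rfl | h
      · simp [Real.zero_rpow hp0.ne']
      · exact Real.self_le_rpow_of_one_le (by exact_mod_cast h) hp1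
    refine (mul_le_mul_of_nonneg_right hm (Real.rpow_nonneg hl _)).trans ?_
    rw [← Real.mul_rpow (Nat.cast_nonneg m) hl]
    refine Real.rpow_le_rpow (by positivity) ?_ hp0.le
    have h8 : (2 : ℝ) ^ (3 * K) = 8 ^ K := by rw [pow_mul]; norm_num
    have hlogm : (m : ℝ) ≤ 2 ^ (Nat.log 2 m + 1) := by
      exact_mod_cast (Nat.lt_pow_succ_log_self one_lt_two m).le
    rw [lvl, hk, pow_add, pow_add, h8, hηe, top,
      show (m : ℝ) * (2 * ((rad B + 2) * R / (8 ^ K * 2 ^ (Nat.log 2 m + 1) * 2 ^ k₁)))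
        = R / 8 ^ K * ((m : ℝ) / 2 ^ (Nat.log 2 m + 1) * (2 * (rad B + 2) / 2 ^ k₁)) by ring]
    refine mul_le_of_le_one_right (by positivity) (mul_le_one₀ ?_ (by positivity) ?_)
    · rw [div_le_one (by positivity)]; exact hlogm
    · rw [div_le_one (by positivity)]; exact hk₁.le
  obtain ⟨Ψ₀, hΨ₀⟩ := sampled u hB0 hR hη k N htail
    (dim_le hB0 hR hK.2 hηe hk hN)
  have hηp : 0 ≤ η ^ p := Real.rpow_nonneg hη.le _
  have up1 : ∀ x y, ‖Ψ₀ x - Ψ₀ y‖ ≤ A₁ * (dst u x y + η) ∧ ‖Ψ₀ x - Ψ₀ y‖ ≤ A₁ * R := by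
    intro x y
    obtain ⟨h1', h2', -⟩ := hΨ₀ x y
    have hd := dst_nonneg u x y
    constructor
    · refine (Real.rpow_le_rpow_iff (norm_nonneg _) (by positivity) hp0).1 ?_
      rw [Real.mul_rpow (by linarith) (by linarith), hA₁e]
      have h1 : dst u x y ^ p ≤ (dst u x y + η) ^ p := Real.rpow_le_rpow hd (by linarith) hp0.le
      have h2 : η ^ p ≤ (dst u x y + η) ^ p := Real.rpow_le_rpow hη.le (by linarith) hp0.le
      have := mul_le_mul_of_nonneg_left h1 hup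
      linarith
    · refine (Real.rpow_le_rpow_iff (norm_nonneg _) (by positivity) hp0).1 ?_
      rw [Real.mul_rpow (by linarith) hR.le, hA₁e]
      have h2 : η ^ p ≤ R ^ p := Real.rpow_le_rpow hη.le hηR hp0.le
      linarith
  obtain ⟨G, hG⟩ := mollify hq hB hKpos hη hn (zero_le_one.trans hA₁) Ψ₀
    (fun x y => (up1 x y).1) (fun x y => (up1 x y).2)
  have hA64 : A₁ ≤ 64 * (rad B + 3) * A₁ := le_mul_of_one_le_left (by linarith) (by linarith)
  refine ⟨G, fun x y => ⟨?_, ?_, ?_, ?_⟩⟩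
  · exact (hG x y).1.trans (mul_le_mul_of_nonneg_left (hle x y) (by
      have : 0 ≤ rad B + 3 := by linarith
      positivity))
  · exact (hG x y).2.1.trans (mul_le_mul_of_nonneg_right hA64 hR.le)
  · intro hxy
    have h0 : dst u x y = 0 := htiny x y (by rw [hηe]; exact hxy)
    have h := (hG x y).1
    rw [h0, mul_zero] at h
    exact sub_eq_zero.1 (norm_le_zero_iff.1 h)
  · intro hgr hlo hhi
    have hu' := hgrowth x hgr
    have hdRu : dst u x y ≤ R := (hle x y).trans hhi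
    have h := (hΨ₀ x y).2.2 hu' hdRu
    simp only [max_lt_iff] at hK₁
    have h2K : (2 : ℝ) ^ K₁ ≤ 2 ^ K := pow_le_pow_right₀ (by norm_num) hK.1
    have h4 : (4 : ℝ) ^ K = 2 ^ K * 2 ^ K := by rw [← mul_pow]; norm_num
    have h8 : (8 : ℝ) ^ K = 2 ^ K * 4 ^ K := by rw [← mul_pow]; norm_num
    have hηd : η * 4 ^ K ≤ dst v x y := by
      rw [hηe, h8, show R / (2 ^ K * 4 ^ K) * 4 ^ K = R / 2 ^ K by field_simp]
      exact hlo
    have h4big : 22 * lowC p + 2 ≤ (4 : ℝ) ^ K := by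
      rw [h4]
      exact ((hK₁.1.le).trans h2K).trans
        (le_mul_of_one_le_left (by positivity) (one_le_pow₀ (by norm_num)))
    have hd0 : 0 ≤ dst v x y := dst_nonneg v x y
    have hdu2 : dst v x y / 2 ≤ dst u x y := by
      have h1 := hge x y
      have h2 : η * 2 ≤ η * 4 ^ K := mul_le_mul_of_nonneg_left (by linarith) hη.le
      linarith only [h1, h2, hηd]
    have hfrac : η * (11 * lowC p + 1) ≤ dst u x y := by
      have h1 := mul_le_mul_of_nonneg_left h4big hη.le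
      linarith only [h1, hdu2, hηd]
    have hsmall : (11 * lowC p + 1) * η ^ p ≤ dst u x y ^ p := by
      have h1 : (11 * lowC p + 1) ≤ (11 * lowC p + 1) ^ p :=
        Real.self_le_rpow_of_one_le (by linarith) hp1
      refine (mul_le_mul_of_nonneg_right h1 hηp).trans ?_
      rw [← Real.mul_rpow (by linarith) hη.le]
      exact Real.rpow_le_rpow (by positivity) (by linarith) hp0.le
    have hΨlow : a₁ * dst u x y ≤ ‖Ψ₀ x - Ψ₀ y‖ := by
      refine (Real.rpow_le_rpow_iff (mul_nonneg ha₁.le (dst_nonneg u x y)) (norm_nonneg _) hp0).1 ?_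
      rw [Real.mul_rpow ha₁.le (dst_nonneg u x y), ha₁e]
      refine le_trans ?_ h
      have hd : 0 ≤ dst u x y ^ p := Real.rpow_nonneg (dst_nonneg u x y) _
      have h1 : η ^ p * (11 / 8) ≤ 1 / 8 * (dst u x y ^ p / lowC p) := by
        rw [show 1 / 8 * (dst u x y ^ p / lowC p) = dst u x y ^ p / 8 / lowC p by ring,
          le_div_iff₀ hlow]
        linarith only [hsmall, hηp]
      rw [show 1 / (4 * lowC p) * dst u x y ^ p = 1 / 4 * (dst u x y ^ p / lowC p) by ring]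
      linarith
    have hclose : A₁ * (rad B + 2) * (η * 2 ^ K) ≤ a₁ / 8 * dst v x y := by
      have h1 : η * 2 ^ K * 2 ^ K ≤ dst v x y := by rw [mul_assoc, ← h4]; exact hηd
      have h2 : 8 * A₁ * (rad B + 2) ≤ a₁ * 2 ^ K := by
        have := (div_le_iff₀ ha₁).1 ((hK₁.2.le).trans h2K)
        linarith
      have h3 := mul_le_mul_of_nonneg_right h2 (by positivity : (0 : ℝ) ≤ η * 2 ^ K)
      have h5 := mul_le_mul_of_nonneg_left h1 ha₁.le
      linarith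
    have t1 := (hG x y).2.2
    have t2 := (hG y x).2.2
    have tri : ‖Ψ₀ x - Ψ₀ y‖ ≤ ‖G x - Ψ₀ x‖ + ‖G x - G y‖ + ‖G y - Ψ₀ y‖ := by
      have := norm_sub_le_norm_sub_add_norm_sub (Ψ₀ x) (G x) (Ψ₀ y)
      have := norm_sub_le_norm_sub_add_norm_sub (G x) (G y) (Ψ₀ y)
      rw [norm_sub_rev (Ψ₀ x) (G x)] at *
      linarith
    have := mul_le_mul_of_nonneg_left hdu2 ha₁.le
    linarith

end Vale.Agent.P249.Scales
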