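import Vale.Agent.P249.NearLinear
import Vale.Agent.P249.Scales.Glue

/-!
# P249: from the scales to a dimension bound `n ^ δ`
-/

open Finset MeasureTheory

namespace Vale.Agent.P249.Scales

/-- elementary growth: a power of the logarithm is below a small power -/
theorem one_add_log_pow_le {δ : ℝ} (hδ : 0 < δ) (j : ℕ) {n : ℝ} (hn : 1 ≤ n) :
    (1 + Real.log n) ^ j ≤ (1 + ((j : ℝ) + 1) / δ) ^ j * n ^ δ := by
  have hj : (0 : ℝ) < (j : ℝ) + 1 := by positivity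
  set ε := δ / ((j : ℝ) + 1) with hε
  have hε0 : 0 < ε := div_pos hδ hj
  have h1 : Real.log n ≤ n ^ ε / ε := Real.log_le_rpow_div (by linarith) hε0
  have h2 : 1 ≤ n ^ ε := Real.one_le_rpow hn hε0.le
  have h3 : 1 + Real.log n ≤ (1 + ((j : ℝ) + 1) / δ) * n ^ ε := by
    rw [hε] at h1 ⊢
    rw [div_div_eq_mul_div, mul_div_assoc] at h1
    linarith
  refine (pow_le_pow_left₀ (by linarith [Real.log_nonneg hn]) h3 j).trans ?_
  rw [mul_pow, ← Real.rpow_natCast (n ^ ε) j, ← Real.rpow_mul (by linarith)]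
  refine mul_le_mul_of_nonneg_left (Real.rpow_le_rpow_of_exponent_le hn ?_) (by positivity)
  rw [hε, div_mul_eq_mul_div, div_le_iff₀ hj]
  linarith [mul_le_mul_of_nonneg_left (show (j : ℝ) ≤ j + 1 by linarith) hδ.le]

theorem log_nat_log_le (m : ℕ) (hm : 1 ≤ m) : (Nat.log 2 m : ℝ) ≤ 2 * Real.log m := by
  have h : ((2 : ℝ) ^ Nat.log 2 m) ≤ m := by exact_mod_cast Nat.pow_log_le_self 2 (by omega)
  have h2 := Real.log_le_log (by positivity) h
  rw [Real.log_pow] at h2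
  have h3 := mul_le_mul_of_nonneg_left Real.log_two_gt_d9.le
    (Nat.cast_nonneg (Nat.log 2 m) : (0 : ℝ) ≤ _)
  linarith [(Nat.cast_nonneg (Nat.log 2 m) : (0 : ℝ) ≤ _)]

theorem dimension_reduction (p : ℝ) (hp : 1 ≤ p) (δ : ℝ) (hδ : 0 < δ) :
    ∃ D C : ℝ, 1 ≤ D ∧ ∀ (Ω : Type*) (_ : MeasurableSpace Ω) (μ : Measure Ω)
      (X : Finset (Lp ℝ (ENNReal.ofReal p) μ)), 2 ≤ X.card →
      ∃ d : ℕ, (d : ℝ) ≤ C * (X.card : ℝ) ^ δ ∧
        ∃ (f : Lp ℝ (ENNReal.ofReal p) μ → Fin d → ℝ) (s : ℝ), 0 < s ∧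
          ∀ x ∈ X, ∀ y ∈ X, s * ‖x - y‖ ≤ (∑ k, |f x k - f y k| ^ p) ^ (1 / p) ∧
            (∑ k, |f x k - f y k| ^ p) ^ (1 / p) ≤ D * s * ‖x - y‖ := by
  classical
  have : Fact (1 ≤ ENNReal.ofReal p) := ⟨by simpa using hp⟩
  have hp0 : 0 < p := by linarith
  obtain ⟨q, hq⟩ : ∃ q : ℕ, q = ⌈6 * p / δ⌉₊ + 1 := ⟨_, rfl⟩
  have hq0 : 0 < q := by omega
  obtain ⟨D₁, D₂, C, K₀, hD₁, hD₂, hC, hglue⟩ := glue (p := p) hq0
  obtain ⟨C₀, hC₀⟩ := Vale.Agent.P249.NearLinear.nearLinear p hp 2 one_lt_two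
  set c₁ := Real.log (|C₀| + 1) with hc₁
  have hc₁0 : 0 ≤ c₁ := Real.log_nonneg (by linarith [abs_nonneg C₀])
  set c₂ := (((8 : ℝ) ^ (K₀ + 1)) ^ p) with hc₂
  set c₃ := (K₀ : ℝ) + 3 + 2 * c₁ + 2 * (p + 3) with hc₃
  set c₄ := (1 + ((3 : ℕ) + 1 : ℝ) / (δ / 2)) ^ 3 with hc₄
  refine ⟨2 * max 1 ((D₂ / D₁) ^ p⁻¹), C * (2 * c₂ * c₃ ^ 2) * c₄, by
    linarith [le_max_left 1 ((D₂ / D₁) ^ p⁻¹)], fun Ω _ μ X hX => ?_⟩
  obtain ⟨m, hm, g, s, hs, hg⟩ := hC₀ Ω inferInstance μ X hX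
  have : Nonempty X := (Finset.card_pos.1 (by omega)).to_subtype
  let e : Fin (Fintype.card X) ≃ X := (Fintype.equivFin X).symm
  have : Nonempty (Fin (Fintype.card X)) := e.nonempty
  let v : Fin (Fintype.card X) → Lsp p m := fun a => WithLp.toLp _ (g (e a))
  set n : ℕ := X.card with hn
  have hcard : Fintype.card (Fin (Fintype.card X)) = n := by simp [hn]
  obtain ⟨K, hK⟩ : ∃ K : ℕ, K = Nat.log 2 n / q + (K₀ + 1) := ⟨_, rfl⟩
  have hKq : Nat.log 2 n + 1 ≤ q * K := by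
    have h1 := Nat.div_add_mod (Nat.log 2 n) q
    have h2 := Nat.mod_lt (Nat.log 2 n) hq0
    rw [hK, Nat.mul_add, Nat.mul_add, Nat.mul_one]
    omega
  have hK0' : K₀ + 1 ≤ K := hK ▸ Nat.le_add_left _ _
  obtain ⟨d, f, hd, hf⟩ := hglue v K ((Nat.le_succ K₀).trans hK0') (by rw [hcard]; exact hKq)
  rw [hcard] at hd
  have hnR : (1 : ℝ) ≤ n := by exact_mod_cast (by omega : 1 ≤ n)
  have hL : 0 ≤ Real.log (n : ℝ) := Real.log_nonneg hnR
  refine ⟨d, hd.trans ?_, fun x => if h : x ∈ X then f (e.symm ⟨x, h⟩) else 0,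
    (D₁ * K) ^ p⁻¹ * s, mul_pos (Real.rpow_pos_of_pos (mul_pos hD₁
      (by exact_mod_cast (Nat.succ_pos K₀).trans_le hK0')) _) hs, fun x hx y hy => ?_⟩
  · -- the size
    have hlogn := log_nat_log_le n (by omega)
    have hdiv : ((Nat.log 2 n / q : ℕ) : ℝ) ≤ (Nat.log 2 n : ℝ) / q := Nat.cast_div_le
    have hpow : ((8 : ℝ) ^ K) ^ p ≤ c₂ * (n : ℝ) ^ (δ / 2) := by
      rw [hK, pow_add, Real.mul_rpow (by positivity) (by positivity), mul_comm, ← hc₂]
      refine mul_le_mul_of_nonneg_left ?_ (by positivity)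
      have h8 : (8 : ℝ) ^ (Nat.log 2 n / q) = (2 : ℝ) ^ (((3 * (Nat.log 2 n / q) : ℕ)) : ℝ) := by
        rw [Real.rpow_natCast, pow_mul]; norm_num
      rw [h8, ← Real.rpow_mul (by norm_num)]
      calc (2 : ℝ) ^ (((3 * (Nat.log 2 n / q) : ℕ) : ℝ) * p)
          ≤ 2 ^ ((Nat.log 2 n : ℝ) * (δ / 2)) := by
            refine Real.rpow_le_rpow_of_exponent_le (by norm_num) ?_
            have hqR : 6 * p / δ ≤ (q : ℝ) := by
              rw [hq]
              push_cast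
              linarith [Nat.le_ceil (6 * p / δ)]
            have hqp : 0 < (q : ℝ) := by exact_mod_cast hq0
            have h3 : 6 * p ≤ (q : ℝ) * δ := (div_le_iff₀ hδ).1 hqR
            have h4 := (le_div_iff₀ hqp).1 hdiv
            push_cast
            refine le_of_mul_le_mul_right ?_ hqp
            have h5 := mul_le_mul_of_nonneg_right h4 (by positivity : (0 : ℝ) ≤ 3 * p)
            have h6 := mul_le_mul_of_nonneg_right h3
              (Nat.cast_nonneg (Nat.log 2 n) : (0 : ℝ) ≤ _)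
            linarith
        _ = ((2 : ℝ) ^ Nat.log 2 n) ^ (δ / 2) := by
            rw [Real.rpow_mul (by norm_num), Real.rpow_natCast]
        _ ≤ _ := Real.rpow_le_rpow (by positivity)
            (by exact_mod_cast Nat.pow_log_le_self 2 (by omega)) (by positivity)
    have hKle : (K : ℝ) ≤ ((K₀ : ℝ) + 1 + 2) * (1 + Real.log n) := by
      have : (Nat.log 2 n / q : ℕ) ≤ Nat.log 2 n := Nat.div_le_self _ _
      have h := (Nat.cast_le (α := ℝ)).2 this
      rw [hK]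
      push_cast
      nlinarith
    have hmlog : (Nat.log 2 m : ℝ) ≤ 2 * (c₁ + (p + 3) * Real.log n) := by
      rcases Nat.eq_zero_or_pos m with h0 | h0
      · rw [h0]; simp only [Nat.log_zero_right, Nat.cast_zero]; positivity
      refine (log_nat_log_le m h0).trans (mul_le_mul_of_nonneg_left ?_ zero_le_two)
      have h1 : (m : ℝ) ≤ (|C₀| + 1) * (n : ℝ) ^ (p + 3) := by
        refine hm.trans ?_
        have h2 : Real.log (n : ℝ) ^ (p + 1) ≤ (n : ℝ) ^ (p + 1) := Real.rpow_le_rpow hL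
          (by linarith [Real.log_le_sub_one_of_pos (show (0 : ℝ) < n by linarith)]) (by linarith)
        calc C₀ * (n : ℝ) * Real.log n ^ (p + 1) ≤ (|C₀| + 1) * (n : ℝ) * (n : ℝ) ^ (p + 1) :=
              mul_le_mul (mul_le_mul_of_nonneg_right (by linarith [le_abs_self C₀]) (by linarith)) h2
                (Real.rpow_nonneg hL _) (by positivity)
          _ = (|C₀| + 1) * (n : ℝ) ^ (p + 2) := by
              rw [mul_assoc, show p + 2 = 1 + (p + 1) by ring,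
                Real.rpow_add (by linarith : (0 : ℝ) < n) 1 (p + 1), Real.rpow_one]
          _ ≤ _ := mul_le_mul_of_nonneg_left
              (Real.rpow_le_rpow_of_exponent_le hnR (by linarith)) (by positivity)
      refine (Real.log_le_log (by exact_mod_cast h0) h1).trans_eq ?_
      rw [Real.log_mul (by positivity) (by positivity), Real.log_rpow (by linarith), ← hc₁]
    set L := 1 + Real.log (n : ℝ) with hLdef
    have hL1 : 1 ≤ L := by linarith
    have hsum : (K : ℝ) + Nat.log 2 m + 1 ≤ (c₃ + 1) * L := by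
      rw [hc₃]
      nlinarith
    have hX : dimBound p n m K ≤ 2 * c₂ * (n : ℝ) ^ (δ / 2) * ((c₃ + 1) * L) * L := by
      rw [dimBound, show Real.log (n : ℝ) + 1 = L by rw [hLdef]; ring]
      have h1 := mul_le_mul_of_nonneg_right (mul_le_mul hpow hsum (by positivity) (by positivity))
        (zero_le_one.trans hL1)
      have h2 : 1 ≤ c₂ * (n : ℝ) ^ (δ / 2) := one_le_mul_of_one_le_of_one_le
        (Real.one_le_rpow (one_le_pow₀ (by norm_num)) hp0.le)
        (Real.one_le_rpow hnR (by linarith))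
      have h3 : 1 ≤ c₂ * (n : ℝ) ^ (δ / 2) * ((c₃ + 1) * L) * L :=
        one_le_mul_of_one_le_of_one_le (one_le_mul_of_one_le_of_one_le h2
          (one_le_mul_of_one_le_of_one_le (by rw [hc₃]; linarith [(Nat.cast_nonneg K₀ : (0:ℝ) ≤ _)])
            hL1)) hL1
      linarith
    have hKc : (K : ℝ) ≤ (c₃ - 1) * L := by
      refine hKle.trans (mul_le_mul_of_nonneg_right ?_ (by linarith))
      rw [hc₃]
      linarith
    have hlog3 := one_add_log_pow_le (half_pos hδ) 3 hnR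
    rw [← hc₄, ← hLdef] at hlog3
    have hdb : 0 ≤ dimBound p n m K := by rw [dimBound]; positivity
    have hc3 : 0 ≤ c₃ - 1 := by rw [hc₃]; linarith [(Nat.cast_nonneg K₀ : (0:ℝ) ≤ _)]
    calc C * K * dimBound p n m K
        ≤ C * ((c₃ - 1) * L) * (2 * c₂ * (n : ℝ) ^ (δ / 2) * ((c₃ + 1) * L) * L) :=
          mul_le_mul (mul_le_mul_of_nonneg_left hKc hC) hX hdb (by positivity)
      _ = C * (2 * c₂ * ((c₃ - 1) * (c₃ + 1))) * (L ^ 3 * (n : ℝ) ^ (δ / 2)) := by ring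
      _ ≤ C * (2 * c₂ * c₃ ^ 2) * (c₄ * (n : ℝ) ^ (δ / 2) * (n : ℝ) ^ (δ / 2)) :=
          mul_le_mul (mul_le_mul_of_nonneg_left (mul_le_mul_of_nonneg_left
            (by linarith [show c₃ ^ 2 = (c₃ - 1) * (c₃ + 1) + 1 by ring]) (by positivity)) hC)
            (mul_le_mul_of_nonneg_right hlog3 (by positivity)) (by positivity) (by positivity)
      _ = _ := by
          rw [mul_assoc c₄, ← Real.rpow_add (by linarith : (0 : ℝ) < n), add_halves]; ring
  · -- the two inequalities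
    simp only [dif_pos hx, dif_pos hy]
    obtain ⟨f1, f2⟩ := hf (e.symm ⟨x, hx⟩) (e.symm ⟨y, hy⟩)
    obtain ⟨g1, g2⟩ := hg x hx y hy
    have hdst : dst v (e.symm ⟨x, hx⟩) (e.symm ⟨y, hy⟩)
        = (∑ k, |g x k - g y k| ^ p) ^ (1 / p) := by
      rw [dst, show ∀ a, v a = WithLp.toLp _ (g (e a)) from fun _ => rfl]
      simp only [v, Equiv.apply_symm_apply]
      exact norm_sub_eq (g x) (g y)
    set t := dst v (e.symm ⟨x, hx⟩) (e.symm ⟨y, hy⟩) with ht
    have ht0 : 0 ≤ t := dst_nonneg _ _ _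
    rw [← hdst] at g1 g2
    set S := ∑ k, |f (e.symm ⟨x, hx⟩) k - f (e.symm ⟨y, hy⟩) k| ^ p
    have hS : 0 ≤ S := sum_nonneg fun k _ => Real.rpow_nonneg (abs_nonneg _) _
    have hK0 : 0 ≤ D₁ * (K : ℝ) := mul_nonneg hD₁.le (Nat.cast_nonneg _)
    have hroot : ∀ c, 0 ≤ c → (c * t ^ p) ^ p⁻¹ = c ^ p⁻¹ * t := fun c hc => by
      rw [Real.mul_rpow hc (Real.rpow_nonneg ht0 _), ← Real.rpow_mul ht0,
        mul_inv_cancel₀ hp0.ne', Real.rpow_one]
    rw [one_div]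
    constructor
    · calc (D₁ * K) ^ p⁻¹ * s * ‖x - y‖ ≤ (D₁ * K) ^ p⁻¹ * t := by
            rw [mul_assoc]; exact mul_le_mul_of_nonneg_left g1 (Real.rpow_nonneg hK0 _)
        _ = (D₁ * K * t ^ p) ^ p⁻¹ := (hroot _ hK0).symm
        _ ≤ _ := Real.rpow_le_rpow (mul_nonneg hK0 (Real.rpow_nonneg ht0 _)) f1
            (inv_nonneg.2 hp0.le)
    · calc S ^ p⁻¹ ≤ (D₂ * K * t ^ p) ^ p⁻¹ := Real.rpow_le_rpow hS f2 (inv_nonneg.2 hp0.le)
        _ = (D₂ * K) ^ p⁻¹ * t := hroot _ (mul_nonneg hD₂.le (Nat.cast_nonneg _))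
        _ = (D₂ / D₁) ^ p⁻¹ * (D₁ * K) ^ p⁻¹ * t := by
            rw [← Real.mul_rpow (div_nonneg hD₂.le hD₁.le) hK0]
            congr 2
            field_simp
        _ ≤ max 1 ((D₂ / D₁) ^ p⁻¹) * (D₁ * K) ^ p⁻¹ * (2 * s * ‖x - y‖) :=
            mul_le_mul (mul_le_mul_of_nonneg_right (le_max_right _ _) (Real.rpow_nonneg hK0 _))
              g2 ht0 (mul_nonneg (zero_le_one.trans (le_max_left _ _)) (Real.rpow_nonneg hK0 _))
        _ = _ := by ring

end Vale.Agent.P249.Scales
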